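import Mathlib

/-! Block L3, leaf SAMPLING with threshold `K`: copy of L2/Sampling.lean with density `p = 4K/k`
(`4K ≤ k`; for `k < 4K` take `S = U`), `1[n ≥ K] ≥ 1 - 4^(K-1) (1/4)^n`,
`4^(K-1) (1 - 3K/k)^k ≤ 4^(K-1) exp(-3K) ≤ 1/4`, and `(#S)^(1+e₀) ≤ #S (#U)^e₀`. -/

set_option linter.all false
set_option autoImplicit false

namespace Vale.Agent.P054.L3

open Finset

open scoped Classical in
/-- generating function of the size of the intersection with a random subset -/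
private lemma sk_gen {Ω : Type} (U A : Finset Ω) (hA : A ⊆ U) (p x : ℝ) :
    ∑ S ∈ U.powerset, p ^ S.card * (1 - p) ^ (U \ S).card * x ^ (A ∩ S).card
      = (1 - p + p * x) ^ A.card := by
  have h := Finset.prod_add (fun i => p * (if i ∈ A then x else 1)) (fun _ : Ω => (1 - p)) U
  have h1 : ∏ i ∈ U, (p * (if i ∈ A then x else 1) + (1 - p)) = (1 - p + p * x) ^ A.card := by
    have : ∀ i ∈ U, (p * (if i ∈ A then x else 1) + (1 - p))
        = if i ∈ A then (1 - p + p * x) else 1 := by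
      intro i _
      split_ifs <;> ring
    rw [Finset.prod_congr rfl this, Finset.prod_ite, Finset.prod_const, Finset.prod_const_one,
      mul_one]
    congr 1
    congr 1
    ext i
    simp only [Finset.mem_filter]
    exact ⟨fun h => h.2, fun h => ⟨hA h, h⟩⟩
  rw [h1] at h
  rw [h]
  refine Finset.sum_congr rfl fun S hS => ?_
  rw [Finset.prod_mul_distrib, Finset.prod_const, Finset.prod_const, Finset.prod_ite,
    Finset.prod_const, Finset.prod_const_one, mul_one]
  have : (S.filter (fun i => i ∈ A)) = A ∩ S := by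
    ext i
    simp only [Finset.mem_filter, Finset.mem_inter]
    tauto
  rw [this]
  ring

private lemma sk_rpow (s u : ℕ) (hsu : s ≤ u) (e : ℝ) (he : 0 ≤ e) :
    (s : ℝ) ^ (1 + e) ≤ s * (u : ℝ) ^ e := by
  rcases Nat.eq_zero_or_pos s with h | h
  · subst h
    rw [Nat.cast_zero, Real.zero_rpow (by linarith), zero_mul]
  · have hs : (0 : ℝ) < s := by exact_mod_cast h
    rw [Real.rpow_add hs, Real.rpow_one]
    exact mul_le_mul_of_nonneg_left
      (Real.rpow_le_rpow hs.le (by exact_mod_cast hsu) he) hs.le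

private lemma sk_rpow' (u : ℕ) (e : ℝ) (he : 0 ≤ e) :
    (u : ℝ) * (u : ℝ) ^ e = (u : ℝ) ^ (1 + e) := by
  rcases Nat.eq_zero_or_pos u with h | h
  · subst h
    have h1 : (1 + e) ≠ 0 := by linarith
    rw [Nat.cast_zero, zero_mul, Real.zero_rpow h1]
  · have hs : (0 : ℝ) < u := by exact_mod_cast h
    rw [Real.rpow_add hs, Real.rpow_one]

open scoped Classical in
theorem samplingK {Ω ι : Type} (U : Finset Ω) (G : Finset ι) (A : ι → Finset Ω)
    (hAU : ∀ g ∈ G, A g ⊆ U) (K : ℕ) (hK : 1 ≤ K) (k : ℕ) (hk : K ≤ k)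
    (hA : ∀ g ∈ G, k ≤ (A g).card) (b e₀ : ℝ) (hb0 : 0 ≤ b) (he : 0 ≤ e₀)
    (hb : ∀ S : Finset Ω, ((G.filter (fun g => K ≤ (A g ∩ S).card)).card : ℝ) ≤
      b * (S.card : ℝ) ^ (1 + e₀)) :
    (G.card : ℝ) * k ≤ 6 * K * b * (U.card : ℝ) ^ (1 + e₀) := by
  have hK0 : (0 : ℝ) < K := by exact_mod_cast hK
  have hk0 : (0 : ℝ) < k := by exact_mod_cast (lt_of_lt_of_le hK hk)
  have hUe : 0 ≤ (U.card : ℝ) ^ (1 + e₀) := Real.rpow_nonneg (Nat.cast_nonneg _) _
  by_cases hk4 : k < 4 * K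
  · have h := hb U
    have h1 : G.filter (fun g => K ≤ (A g ∩ U).card) = G := by
      apply Finset.filter_true_of_mem
      intro g hg
      rw [Finset.inter_eq_left.2 (hAU g hg)]
      exact hk.trans (hA g hg)
    rw [h1] at h
    have h2 : (k : ℝ) ≤ 4 * K := by exact_mod_cast hk4.le
    have h3 : 0 ≤ b * (U.card : ℝ) ^ (1 + e₀) := mul_nonneg hb0 hUe
    calc (G.card : ℝ) * k ≤ (b * (U.card : ℝ) ^ (1 + e₀)) * (4 * K) :=
          mul_le_mul h h2 hk0.le h3
      _ ≤ (b * (U.card : ℝ) ^ (1 + e₀)) * (6 * K) :=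
          mul_le_mul_of_nonneg_left (by linarith) h3
      _ = 6 * K * b * (U.card : ℝ) ^ (1 + e₀) := by ring
  push Not at hk4
  set p : ℝ := 4 * K / k with hp
  have hk4' : (4 : ℝ) * K ≤ k := by exact_mod_cast hk4
  have hp0 : 0 ≤ p := by positivity
  have hp1 : 0 ≤ 1 - p := by
    rw [hp, sub_nonneg, div_le_one hk0]
    exact hk4'
  set μ : Finset Ω → ℝ := fun S => p ^ S.card * (1 - p) ^ (U \ S).card with hμ
  have hμ0 : ∀ S, 0 ≤ μ S := fun S => by
    rw [hμ]
    positivity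
  -- total mass and mean size
  have htot : ∑ S ∈ U.powerset, μ S = 1 := by
    have := sk_gen U ∅ (Finset.empty_subset _) p 1
    simpa [hμ] using this
  have hmem : ∀ i ∈ U, ∑ S ∈ U.powerset, μ S * (if i ∈ S then (1 : ℝ) else 0) = p := by
    intro i hi
    have h := sk_gen U {i} (Finset.singleton_subset_iff.2 hi) p 0
    have h2 : ∀ S ∈ U.powerset, μ S * (if i ∈ S then (1 : ℝ) else 0)
        = μ S - p ^ S.card * (1 - p) ^ (U \ S).card * 0 ^ (({i} : Finset Ω) ∩ S).card := by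
      intro S _
      by_cases hiS : i ∈ S
      · have : ({i} : Finset Ω) ∩ S = {i} :=
          Finset.inter_eq_left.2 (Finset.singleton_subset_iff.2 hiS)
        simp [hiS, this, hμ]
      · have : ({i} : Finset Ω) ∩ S = ∅ := by
          rw [Finset.singleton_inter_of_notMem hiS]
        simp [hiS, this, hμ]
    rw [Finset.sum_congr rfl h2, Finset.sum_sub_distrib, htot, h]
    simp
  have hmean : ∑ S ∈ U.powerset, μ S * (S.card : ℝ) = p * U.card := by
    have h1 : ∀ S ∈ U.powerset, μ S * (S.card : ℝ)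
        = ∑ i ∈ U, μ S * (if i ∈ S then (1 : ℝ) else 0) := by
      intro S hS
      rw [← Finset.mul_sum]
      congr 1
      rw [Finset.sum_ite_mem, Finset.inter_eq_right.2 (Finset.mem_powerset.1 hS)]
      simp
    rw [Finset.sum_congr rfl h1, Finset.sum_comm, Finset.sum_congr rfl hmem]
    simp [mul_comm]
  -- upper bound
  have hup : ∑ S ∈ U.powerset, μ S * ((G.filter (fun g => K ≤ (A g ∩ S).card)).card : ℝ)
      ≤ b * (U.card : ℝ) ^ e₀ * (p * U.card) := by
    rw [← hmean, Finset.mul_sum]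
    refine Finset.sum_le_sum fun S hS => ?_
    have hSU : S.card ≤ U.card := Finset.card_le_card (Finset.mem_powerset.1 hS)
    have h2 : ((G.filter (fun g => K ≤ (A g ∩ S).card)).card : ℝ)
        ≤ b * (S.card * (U.card : ℝ) ^ e₀) :=
      (hb S).trans (mul_le_mul_of_nonneg_left (sk_rpow _ _ hSU _ he) hb0)
    calc μ S * ((G.filter (fun g => K ≤ (A g ∩ S).card)).card : ℝ)
        ≤ μ S * (b * (S.card * (U.card : ℝ) ^ e₀)) :=
          mul_le_mul_of_nonneg_left h2 (hμ0 S)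
      _ = b * (U.card : ℝ) ^ e₀ * (μ S * S.card) := by ring
  -- lower bound
  have hpk : p * k = 4 * K := by
    rw [hp]
    field_simp
  have hexp : (4 : ℝ) ^ (K - 1) * (1 - 3 / 4 * p) ^ k ≤ 1 / 4 := by
    have h1 : (1 - 3 / 4 * p) ≤ Real.exp (-(3 / 4 * p)) := by
      have := Real.add_one_le_exp (-(3 / 4 * p))
      linarith
    have h0 : 0 ≤ 1 - 3 / 4 * p := by linarith
    have h2 : (1 - 3 / 4 * p) ^ k ≤ (Real.exp (-3)) ^ K :=
      calc (1 - 3 / 4 * p) ^ k ≤ (Real.exp (-(3 / 4 * p))) ^ k := pow_le_pow_left₀ h0 h1 k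
        _ = (Real.exp (-3)) ^ K := by
            rw [← Real.exp_nat_mul, ← Real.exp_nat_mul]
            congr 1
            have : (k : ℝ) * (-(3 / 4 * p)) = -(3 / 4) * (p * k) := by ring
            rw [this, hpk]
            ring
    have h3 : Real.exp (-3) ≤ 1 / 16 := by
      rw [Real.exp_neg, one_div]
      apply inv_anti₀ (by norm_num)
      have h3 : Real.exp 3 = Real.exp 1 ^ 3 := by
        rw [← Real.exp_nat_mul]
        norm_num
      rw [h3]
      have := Real.exp_one_gt_d9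
      calc (16 : ℝ) ≤ 2.7 ^ 3 := by norm_num
        _ ≤ Real.exp 1 ^ 3 := pow_le_pow_left₀ (by norm_num) (by linarith) 3
    obtain ⟨n, rfl⟩ : ∃ n, K = n + 1 := ⟨K - 1, by omega⟩
    have h4 : (Real.exp (-3)) ^ (n + 1) ≤ (1 / 16 : ℝ) ^ (n + 1) :=
      pow_le_pow_left₀ (Real.exp_pos _).le h3 _
    have h5 : (4 : ℝ) ^ n * (1 / 16 : ℝ) ^ (n + 1) ≤ 1 / 4 := by
      rw [pow_succ, ← mul_assoc, ← mul_pow]
      have h6 : ((4 : ℝ) * (1 / 16)) ^ n ≤ 1 := pow_le_one₀ (by norm_num) (by norm_num)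
      linarith
    calc (4 : ℝ) ^ (n + 1 - 1) * (1 - 3 / 4 * p) ^ k
        ≤ (4 : ℝ) ^ (n + 1 - 1) * (1 / 16 : ℝ) ^ (n + 1) :=
          mul_le_mul_of_nonneg_left (h2.trans h4) (by positivity)
      _ ≤ 1 / 4 := by
          rw [Nat.add_sub_cancel]
          exact h5
  have hlow1 : ∀ g ∈ G, (3 / 4 : ℝ) ≤
      ∑ S ∈ U.powerset, μ S * (if K ≤ (A g ∩ S).card then (1 : ℝ) else 0) := by
    intro g hg
    have h1 := sk_gen U (A g) (hAU g hg) p (1 / 4)
    have h2 : (4 : ℝ) ^ (K - 1) * (1 - p + p * (1 / 4)) ^ (A g).card ≤ 1 / 4 := by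
      have h3 : 1 - p + p * (1 / 4) = 1 - 3 / 4 * p := by ring
      rw [h3]
      have h0 : 0 ≤ 1 - 3 / 4 * p := by linarith
      have h4 : 1 - 3 / 4 * p ≤ 1 := by linarith
      exact (mul_le_mul_of_nonneg_left (pow_le_pow_of_le_one h0 h4 (hA g hg))
        (by positivity)).trans hexp
    calc (3 / 4 : ℝ) ≤ 1 - (4 : ℝ) ^ (K - 1) * (1 - p + p * (1 / 4)) ^ (A g).card := by linarith
      _ = ∑ S ∈ U.powerset, (μ S - (4 : ℝ) ^ (K - 1) * (μ S * (1 / 4) ^ (A g ∩ S).card)) := by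
          rw [Finset.sum_sub_distrib, htot, ← Finset.mul_sum, h1]
      _ ≤ ∑ S ∈ U.powerset, μ S * (if K ≤ (A g ∩ S).card then (1 : ℝ) else 0) := by
          refine Finset.sum_le_sum fun S _ => ?_
          have hm := hμ0 S
          have hpw : (0 : ℝ) ≤ (4 : ℝ) ^ (K - 1) * (μ S * (1 / 4) ^ (A g ∩ S).card) := by
            positivity
          split_ifs with h2
          · linarith
          · have h5 : (A g ∩ S).card ≤ K - 1 := by omega
            have h6 : (1 / 4 : ℝ) ^ (K - 1) ≤ (1 / 4) ^ (A g ∩ S).card :=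
              pow_le_pow_of_le_one (by norm_num) (by norm_num) h5
            have h7 : (1 : ℝ) ≤ (4 : ℝ) ^ (K - 1) * (1 / 4) ^ (A g ∩ S).card := by
              calc (1 : ℝ) = (4 : ℝ) ^ (K - 1) * (1 / 4 : ℝ) ^ (K - 1) := by
                    rw [← mul_pow]
                    norm_num
                _ ≤ _ := mul_le_mul_of_nonneg_left h6 (by positivity)
            have h8 := mul_le_mul_of_nonneg_left h7 hm
            have h9 : μ S * ((4 : ℝ) ^ (K - 1) * (1 / 4) ^ (A g ∩ S).card)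
                = (4 : ℝ) ^ (K - 1) * (μ S * (1 / 4) ^ (A g ∩ S).card) := by ring
            rw [h9] at h8
            linarith
  have hlow : (3 / 4 : ℝ) * G.card ≤
      ∑ S ∈ U.powerset, μ S * ((G.filter (fun g => K ≤ (A g ∩ S).card)).card : ℝ) := by
    have h1 : ∀ S ∈ U.powerset, μ S * ((G.filter (fun g => K ≤ (A g ∩ S).card)).card : ℝ)
        = ∑ g ∈ G, μ S * (if K ≤ (A g ∩ S).card then (1 : ℝ) else 0) := by
      intro S _
      rw [← Finset.mul_sum]
      congr 1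
      rw [Finset.sum_boole]
    rw [Finset.sum_congr rfl h1, Finset.sum_comm]
    calc (3 / 4 : ℝ) * G.card = ∑ g ∈ G, (3 / 4 : ℝ) := by
          rw [Finset.sum_const, nsmul_eq_mul]
          ring
      _ ≤ _ := Finset.sum_le_sum hlow1
  have hfin : (3 / 4 : ℝ) * G.card ≤ b * (U.card : ℝ) ^ e₀ * (p * U.card) := hlow.trans hup
  have h1 : b * (U.card : ℝ) ^ e₀ * (p * U.card) * k
      = 4 * K * b * (U.card : ℝ) ^ (1 + e₀) := by
    rw [← sk_rpow' U.card e₀ he]
    calc b * (U.card : ℝ) ^ e₀ * (p * U.card) * k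
        = (p * k) * b * ((U.card : ℝ) * (U.card : ℝ) ^ e₀) := by ring
      _ = _ := by rw [hpk]
  have h2 := mul_le_mul_of_nonneg_right hfin hk0.le
  rw [h1] at h2
  have h3 : 0 ≤ K * b * (U.card : ℝ) ^ (1 + e₀) := by positivity
  nlinarith

end Vale.Agent.P054.L3
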