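import Vale.Agent.P054.L3.Defs
import Vale.Agent.P054.L3.Sampling

/-! Block L3, leaf BASE. `g` with few points on one of the two lines.
Proof. By symmetry (`(T 0)` small or `(T 1)` small; two halves of `G`) let `#(T 0 g) < K'`, both
`≥ K` (otherwise `psi = 0`). `psi ≤ K'^2 * #(T 1 g)`. For every `j ≥ 1` `samplingK` with
`U = X 2 ×ˢ X 3`,
`A g = (T 1 g).image (t ↦ (lpt (p 2 g) (v 2 g) t, lpt (p 3 g) (v 3 g) t))` (injective because
`v ≠ 0`), `k = max K j`, `b = B * (#(X 0) * #(X 1))^(1+e₀)` (from `D.hJ` with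
`S₁ = X 0 ×ˢ X 1`) gives `#{g : j ≤ #(T 1 g)} j ≤ 6 K B N^(1+e₀)`. Summing over `j ≤ N`,
`∑ #(T 1 g) ≤ 6 K B N^(1+e₀) (1 + log N) ≤ C N^(1+ε)`. -/

set_option linter.all false
set_option autoImplicit false

namespace Vale.Agent.P054.L3

open Finset
open Vale.Agent.P054.L2 (V3 sqd lpt lineSet trk ONF coord emb InFlat OnFlat)

private lemma bs_inj (p q v w : V3) (hv : v ≠ 0) :
    Function.Injective (fun t : ℝ => (lpt p v t, lpt q w t)) := by
  intro s t h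
  have h1 : lpt p v s = lpt p v t := (Prod.mk.inj h).1
  obtain ⟨i, hi⟩ : ∃ i, v i ≠ 0 := by
    by_contra hcon
    push Not at hcon
    exact hv (funext hcon)
  have h2 := congrFun h1 i
  simp only [lpt, Pi.add_apply, Pi.smul_apply, smul_eq_mul, add_right_inj] at h2
  exact mul_right_cancel₀ hi h2

private lemma bs_inter {α Ω : Type} (i1 i3 : DecidableEq Ω) (T : Finset α) (f : α → Ω)
    (S : Finset Ω) (i2 : DecidablePred (fun t => f t ∈ S)) :
    (@Inter.inter (Finset Ω) (@Finset.instInter Ω i3) (@Finset.image α Ω i1 f T) S).card ≤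
      (T.filter (fun t => f t ∈ S)).card := by
  have h : i1 = i3 := Subsingleton.elim _ _
  subst h
  have : T.image f ∩ S ⊆ (T.filter (fun t => f t ∈ S)).image f := by
    intro q hq
    rw [Finset.mem_inter, Finset.mem_image] at hq
    obtain ⟨⟨t, ht, rfl⟩, hS⟩ := hq
    exact Finset.mem_image.2 ⟨t, Finset.mem_filter.2 ⟨ht, hS⟩, rfl⟩
  exact (Finset.card_le_card this).trans Finset.card_image_le

open scoped Classical in
private lemma bs_sum {Ω ι : Type} (U : Finset Ω) (G : Finset ι) (A : ι → Finset Ω)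
    (hAU : ∀ g ∈ G, A g ⊆ U) (K : ℕ) (hK : 1 ≤ K) (hA : ∀ g ∈ G, K ≤ (A g).card)
    (b e₀ : ℝ) (hb0 : 0 ≤ b) (he : 0 ≤ e₀)
    (hb : ∀ S : Finset Ω, ((G.filter (fun g => K ≤ (A g ∩ S).card)).card : ℝ) ≤
      b * (S.card : ℝ) ^ (1 + e₀)) :
    ∑ g ∈ G, ((A g).card : ℝ) ≤
      (6 * K * b * (U.card : ℝ) ^ (1 + e₀)) * (1 + Real.log U.card) := by
  set Q : ℝ := 6 * K * b * (U.card : ℝ) ^ (1 + e₀) with hQ
  have hQ0 : 0 ≤ Q := by
    have := Real.rpow_nonneg (Nat.cast_nonneg (α := ℝ) U.card) (1 + e₀)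
    positivity
  have hstep : ∀ i : ℕ, ((G.filter (fun g => i + 1 ≤ (A g).card)).card : ℝ) ≤
      Q * ((i + 1 : ℕ) : ℝ)⁻¹ := by
    intro i
    have h := samplingK U (G.filter (fun g => i + 1 ≤ (A g).card)) A
      (fun g hg => hAU g (Finset.mem_filter.1 hg).1) K hK (max (i + 1) K) (le_max_right _ _)
      (fun g hg => max_le (Finset.mem_filter.1 hg).2 (hA g (Finset.mem_filter.1 hg).1))
      b e₀ hb0 he (fun S => by
        refine le_trans (Nat.cast_le.2 (Finset.card_le_card ?_)) (hb S)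
        intro g hg
        rw [Finset.mem_filter] at hg ⊢
        exact ⟨(Finset.mem_filter.1 hg.1).1, hg.2⟩)
    rw [← hQ] at h
    have hi0 : (0 : ℝ) < ((i + 1 : ℕ) : ℝ) := by positivity
    rw [← div_eq_mul_inv, le_div_iff₀ hi0]
    refine le_trans (mul_le_mul_of_nonneg_left ?_ (Nat.cast_nonneg _)) h
    exact Nat.cast_le.2 (le_max_left _ _)
  have hcard : ∀ g ∈ G, ((A g).card : ℝ) =
      ∑ i ∈ Finset.range U.card, (if i + 1 ≤ (A g).card then (1 : ℝ) else 0) := by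
    intro g hg
    rw [Finset.sum_boole]
    congr 1
    have hle : (A g).card ≤ U.card := Finset.card_le_card (hAU g hg)
    have : (Finset.range U.card).filter (fun i => i + 1 ≤ (A g).card)
        = Finset.range (A g).card := by
      ext i
      simp only [Finset.mem_filter, Finset.mem_range]
      omega
    rw [this, Finset.card_range]
  rw [Finset.sum_congr rfl hcard, Finset.sum_comm]
  have h1 : ∀ i ∈ Finset.range U.card,
      ∑ g ∈ G, (if i + 1 ≤ (A g).card then (1 : ℝ) else 0) ≤ Q * ((i + 1 : ℕ) : ℝ)⁻¹ := by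
    intro i _
    rw [Finset.sum_boole]
    exact hstep i
  refine (Finset.sum_le_sum h1).trans ?_
  rw [← Finset.mul_sum]
  refine mul_le_mul_of_nonneg_left ?_ hQ0
  have h2 := harmonic_le_one_add_log U.card
  rw [harmonic] at h2
  push_cast at h2 ⊢
  exact h2

private lemma bs_psi (K K' x y : ℕ) (hx : x < K') :
    psi K x y ≤ if K ≤ x ∧ K ≤ y then K' ^ 2 * y else 0 := by
  unfold psi
  split_ifs with h
  · have h1 : x * y * min x y ≤ K' * y * K' :=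
      Nat.mul_le_mul (Nat.mul_le_mul hx.le le_rfl) ((min_le_left _ _).trans hx.le)
    calc x * y * min x y ≤ K' * y * K' := h1
      _ = K' ^ 2 * y := by ring
  · exact le_rfl

private lemma bs_psi' (K K' x y : ℕ) (hy : y < K') :
    psi K x y ≤ if K ≤ x ∧ K ≤ y then K' ^ 2 * x else 0 := by
  unfold psi
  split_ifs with h
  · have h1 : x * y * min x y ≤ x * K' * K' :=
      Nat.mul_le_mul (Nat.mul_le_mul le_rfl hy.le) ((min_le_right _ _).trans hy.le)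
    calc x * y * min x y ≤ x * K' * K' := h1
      _ = K' ^ 2 * x := by ring
  · exact le_rfl

open scoped Classical in
/-- the elements of `G` with both cardinalities at least `K` -/
private noncomputable def bs_big {K : ℕ} {B e₀ : ℝ} {ι : Type} (D : L2D K B e₀ ι) : Finset ι :=
  D.G.filter (fun g => K ≤ (D.T 0 g).card ∧ K ≤ (D.T 1 g).card)

private lemma bs_sub {K : ℕ} {B e₀ : ℝ} {ι : Type} (D : L2D K B e₀ ι) {g : ι} (hg : g ∈ D.G) :
    (∀ t ∈ D.T 0 g, (lpt (D.p 0 g) (D.v 0 g) t, lpt (D.p 1 g) (D.v 1 g) t) ∈ D.X 0 ×ˢ D.X 1) ∧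
    (∀ t ∈ D.T 1 g, (lpt (D.p 2 g) (D.v 2 g) t, lpt (D.p 3 g) (D.v 3 g) t) ∈ D.X 2 ×ˢ D.X 3) := by
  have e0 : trk 0 = 0 := rfl
  have e1 : trk 1 = 0 := rfl
  have e2 : trk 2 = 1 := rfl
  have e3 : trk 3 = 1 := rfl
  constructor
  · intro t ht
    rw [Finset.mem_product]
    exact ⟨D.hX 0 g hg t (by rw [e0]; exact ht), D.hX 1 g hg t (by rw [e1]; exact ht)⟩
  · intro t ht
    rw [Finset.mem_product]
    exact ⟨D.hX 2 g hg t (by rw [e2]; exact ht), D.hX 3 g hg t (by rw [e3]; exact ht)⟩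

private lemma bs_side1 {K : ℕ} (hK : 2 ≤ K) {B e₀ : ℝ} (hB : 0 ≤ B) (he : 0 ≤ e₀) {ι : Type}
    (D : L2D K B e₀ ι) :
    ∑ g ∈ bs_big D, ((D.T 1 g).card : ℝ) ≤
      (6 * K * (B * (((D.X 0).card * (D.X 1).card : ℕ) : ℝ) ^ (1 + e₀)) *
        (((D.X 2).card * (D.X 3).card : ℕ) : ℝ) ^ (1 + e₀)) *
        (1 + Real.log (((D.X 2).card * (D.X 3).card : ℕ) : ℝ)) := by
  classical
  have hG : ∀ g ∈ bs_big D, g ∈ D.G ∧ K ≤ (D.T 0 g).card ∧ K ≤ (D.T 1 g).card := by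
    intro g hg
    unfold bs_big at hg
    exact Finset.mem_filter.1 hg
  have h := bs_sum (D.X 2 ×ˢ D.X 3) (bs_big D)
    (fun g => (D.T 1 g).image
      (fun t => (lpt (D.p 2 g) (D.v 2 g) t, lpt (D.p 3 g) (D.v 3 g) t)))
    (by
      intro g hg
      intro q hq
      rw [Finset.mem_image] at hq
      obtain ⟨t, ht, rfl⟩ := hq
      exact (bs_sub D (hG g hg).1).2 t ht)
    K (by omega)
    (by
      intro g hg
      rw [Finset.card_image_of_injective _ (bs_inj _ _ _ _ (D.hv 2 g (hG g hg).1))]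
      exact (hG g hg).2.2)
    (B * (((D.X 0).card * (D.X 1).card : ℕ) : ℝ) ^ (1 + e₀)) e₀
    (by positivity) he
    (by
      intro S
      have hJ := D.hJ (D.X 0 ×ˢ D.X 1) S
      rw [Finset.card_product] at hJ
      have e1 : ((((D.X 0).card * (D.X 1).card) * S.card : ℕ) : ℝ) ^ (1 + e₀)
          = (((D.X 0).card * (D.X 1).card : ℕ) : ℝ) ^ (1 + e₀) * (S.card : ℝ) ^ (1 + e₀) := by
        rw [Nat.cast_mul ((D.X 0).card * (D.X 1).card) S.card]
        exact Real.mul_rpow (Nat.cast_nonneg _) (Nat.cast_nonneg _)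
      rw [e1] at hJ
      rw [mul_assoc]
      refine le_trans (Nat.cast_le.2 (Finset.card_le_card ?_)) hJ
      intro g hg
      rw [Finset.mem_filter] at hg ⊢
      obtain ⟨hg1, hg2⟩ := hg
      refine ⟨(hG g hg1).1, ?_, ?_⟩
      · rw [Finset.filter_true_of_mem (bs_sub D (hG g hg1).1).1]
        exact (hG g hg1).2.1
      · exact le_trans hg2 (bs_inter _ _ (D.T 1 g)
          (fun t => (lpt (D.p 2 g) (D.v 2 g) t, lpt (D.p 3 g) (D.v 3 g) t)) S _))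
  rw [Finset.card_product] at h
  refine le_trans (le_of_eq ?_) h
  refine Finset.sum_congr rfl fun g hg => ?_
  rw [Finset.card_image_of_injective _ (bs_inj _ _ _ _ (D.hv 2 g (hG g hg).1))]

private lemma bs_side0 {K : ℕ} (hK : 2 ≤ K) {B e₀ : ℝ} (hB : 0 ≤ B) (he : 0 ≤ e₀) {ι : Type}
    (D : L2D K B e₀ ι) :
    ∑ g ∈ bs_big D, ((D.T 0 g).card : ℝ) ≤
      (6 * K * (B * (((D.X 2).card * (D.X 3).card : ℕ) : ℝ) ^ (1 + e₀)) *
        (((D.X 0).card * (D.X 1).card : ℕ) : ℝ) ^ (1 + e₀)) *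
        (1 + Real.log (((D.X 0).card * (D.X 1).card : ℕ) : ℝ)) := by
  classical
  have hG : ∀ g ∈ bs_big D, g ∈ D.G ∧ K ≤ (D.T 0 g).card ∧ K ≤ (D.T 1 g).card := by
    intro g hg
    unfold bs_big at hg
    exact Finset.mem_filter.1 hg
  have h := bs_sum (D.X 0 ×ˢ D.X 1) (bs_big D)
    (fun g => (D.T 0 g).image
      (fun t => (lpt (D.p 0 g) (D.v 0 g) t, lpt (D.p 1 g) (D.v 1 g) t)))
    (by
      intro g hg
      intro q hq
      rw [Finset.mem_image] at hq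
      obtain ⟨t, ht, rfl⟩ := hq
      exact (bs_sub D (hG g hg).1).1 t ht)
    K (by omega)
    (by
      intro g hg
      rw [Finset.card_image_of_injective _ (bs_inj _ _ _ _ (D.hv 0 g (hG g hg).1))]
      exact (hG g hg).2.1)
    (B * (((D.X 2).card * (D.X 3).card : ℕ) : ℝ) ^ (1 + e₀)) e₀
    (by positivity) he
    (by
      intro S
      have hJ := D.hJ S (D.X 2 ×ˢ D.X 3)
      rw [Finset.card_product] at hJ
      have e1 : ((S.card * ((D.X 2).card * (D.X 3).card) : ℕ) : ℝ) ^ (1 + e₀)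
          = (((D.X 2).card * (D.X 3).card : ℕ) : ℝ) ^ (1 + e₀) * (S.card : ℝ) ^ (1 + e₀) := by
        rw [Nat.cast_mul S.card ((D.X 2).card * (D.X 3).card), mul_comm (S.card : ℝ)]
        exact Real.mul_rpow (Nat.cast_nonneg _) (Nat.cast_nonneg _)
      rw [e1] at hJ
      rw [mul_assoc]
      refine le_trans (Nat.cast_le.2 (Finset.card_le_card ?_)) hJ
      intro g hg
      rw [Finset.mem_filter] at hg ⊢
      obtain ⟨hg1, hg2⟩ := hg
      refine ⟨(hG g hg1).1, ?_, ?_⟩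
      · exact le_trans hg2 (bs_inter _ _ (D.T 0 g)
          (fun t => (lpt (D.p 0 g) (D.v 0 g) t, lpt (D.p 1 g) (D.v 1 g) t)) S _)
      · rw [Finset.filter_true_of_mem (bs_sub D (hG g hg1).1).2]
        exact (hG g hg1).2.2)
  rw [Finset.card_product] at h
  refine le_trans (le_of_eq ?_) h
  refine Finset.sum_congr rfl fun g hg => ?_
  rw [Finset.card_image_of_injective _ (bs_inj _ _ _ _ (D.hv 0 g (hG g hg).1))]

private lemma bs_num (a c : ℕ) (ha : 1 ≤ a) (hc : 1 ≤ c) (K : ℕ) (B e₀ ε : ℝ) (hB : 0 ≤ B)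
    (he : 0 ≤ e₀) (hε : e₀ < ε) :
    (6 * K * (B * (a : ℝ) ^ (1 + e₀)) * (c : ℝ) ^ (1 + e₀)) * (1 + Real.log (c : ℝ)) ≤
      (6 * K * B * (1 + 1 / (ε - e₀))) * ((a * c : ℕ) : ℝ) ^ (1 + ε) := by
  have hδ : 0 < ε - e₀ := by linarith
  have ha0 : (0 : ℝ) < a := by exact_mod_cast ha
  have hc0 : (0 : ℝ) < c := by exact_mod_cast hc
  have hN0 : (0 : ℝ) < ((a * c : ℕ) : ℝ) := by
    rw [Nat.cast_mul]
    positivity
  have hN1 : (1 : ℝ) ≤ ((a * c : ℕ) : ℝ) := by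
    exact_mod_cast Nat.mul_pos ha hc
  have h1 : (a : ℝ) ^ (1 + e₀) * (c : ℝ) ^ (1 + e₀) = ((a * c : ℕ) : ℝ) ^ (1 + e₀) := by
    rw [Nat.cast_mul, Real.mul_rpow ha0.le hc0.le]
  have h2 : 1 + Real.log (c : ℝ) ≤ (1 + 1 / (ε - e₀)) * ((a * c : ℕ) : ℝ) ^ (ε - e₀) := by
    have h3 : Real.log (c : ℝ) ≤ (c : ℝ) ^ (ε - e₀) / (ε - e₀) :=
      Real.log_le_rpow_div hc0.le hδ
    have hcN : (c : ℝ) ≤ ((a * c : ℕ) : ℝ) := by
      exact_mod_cast Nat.le_mul_of_pos_left c ha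
    have h4 : (c : ℝ) ^ (ε - e₀) ≤ ((a * c : ℕ) : ℝ) ^ (ε - e₀) :=
      Real.rpow_le_rpow hc0.le hcN hδ.le
    have h5 : (1 : ℝ) ≤ ((a * c : ℕ) : ℝ) ^ (ε - e₀) := Real.one_le_rpow hN1 hδ.le
    have h6 : (c : ℝ) ^ (ε - e₀) / (ε - e₀) ≤ ((a * c : ℕ) : ℝ) ^ (ε - e₀) / (ε - e₀) :=
      div_le_div_of_nonneg_right h4 hδ.le
    calc 1 + Real.log (c : ℝ) ≤ ((a * c : ℕ) : ℝ) ^ (ε - e₀) +
          ((a * c : ℕ) : ℝ) ^ (ε - e₀) / (ε - e₀) := by linarith
      _ = (1 + 1 / (ε - e₀)) * ((a * c : ℕ) : ℝ) ^ (ε - e₀) := by ring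
  have h7 : ((a * c : ℕ) : ℝ) ^ (1 + ε)
      = ((a * c : ℕ) : ℝ) ^ (1 + e₀) * ((a * c : ℕ) : ℝ) ^ (ε - e₀) := by
    rw [← Real.rpow_add hN0]
    congr 1
    ring
  have h8 : 0 ≤ 6 * K * B * ((a * c : ℕ) : ℝ) ^ (1 + e₀) := by positivity
  calc (6 * K * (B * (a : ℝ) ^ (1 + e₀)) * (c : ℝ) ^ (1 + e₀)) * (1 + Real.log (c : ℝ))
      = (6 * K * B * ((a : ℝ) ^ (1 + e₀) * (c : ℝ) ^ (1 + e₀))) * (1 + Real.log (c : ℝ)) := by
        ring
    _ = (6 * K * B * ((a * c : ℕ) : ℝ) ^ (1 + e₀)) * (1 + Real.log (c : ℝ)) := by rw [h1]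
    _ ≤ (6 * K * B * ((a * c : ℕ) : ℝ) ^ (1 + e₀)) *
          ((1 + 1 / (ε - e₀)) * ((a * c : ℕ) : ℝ) ^ (ε - e₀)) :=
        mul_le_mul_of_nonneg_left h2 h8
    _ = _ := by
        rw [h7]
        ring

theorem base (K : ℕ) (hK : 2 ≤ K) (B e₀ : ℝ) (hB : 0 ≤ B) (he : 0 ≤ e₀) (ε : ℝ) (hε : e₀ < ε) :
    BaseClaim K B e₀ ε := by
  classical
  intro K'
  have hδ : 0 < ε - e₀ := by linarith
  set c₁ : ℝ := 6 * K * B * (1 + 1 / (ε - e₀)) with hc₁
  have hc₁0 : 0 ≤ c₁ := by positivity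
  refine ⟨2 * (K' ^ 2 * c₁), by positivity, ?_⟩
  intro ι D hsmall
  have hNr : 0 ≤ (D.N : ℝ) ^ (1 + ε) := Real.rpow_nonneg (Nat.cast_nonneg _) _
  -- reduce the sum to the big elements
  have hle : D.wt ≤ ∑ g ∈ bs_big D, ((K' : ℝ) ^ 2 * ((D.T 0 g).card : ℝ) +
      (K' : ℝ) ^ 2 * ((D.T 1 g).card : ℝ)) := by
    unfold L2D.wt bs_big
    rw [Finset.sum_filter]
    refine Finset.sum_le_sum fun g hg => ?_
    rcases hsmall g hg with h | h
    · have h1 := bs_psi K K' (D.T 0 g).card (D.T 1 g).card h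
      split_ifs at h1 ⊢ with h2
      · have h3 : (psi K (D.T 0 g).card (D.T 1 g).card : ℝ) ≤ (K' : ℝ) ^ 2 * (D.T 1 g).card := by
          exact_mod_cast h1
        have h4 : 0 ≤ (K' : ℝ) ^ 2 * ((D.T 0 g).card : ℝ) := by positivity
        linarith
      · exact_mod_cast h1
    · have h1 := bs_psi' K K' (D.T 0 g).card (D.T 1 g).card h
      split_ifs at h1 ⊢ with h2
      · have h3 : (psi K (D.T 0 g).card (D.T 1 g).card : ℝ) ≤ (K' : ℝ) ^ 2 * (D.T 0 g).card := by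
          exact_mod_cast h1
        have h4 : 0 ≤ (K' : ℝ) ^ 2 * ((D.T 1 g).card : ℝ) := by positivity
        linarith
      · exact_mod_cast h1
  rcases (bs_big D).eq_empty_or_nonempty with hemp | ⟨g, hg⟩
  · rw [hemp, Finset.sum_empty] at hle
    exact hle.trans (by positivity)
  -- all `X i` are nonempty
  have hg' : g ∈ D.G ∧ K ≤ (D.T 0 g).card ∧ K ≤ (D.T 1 g).card := by
    unfold bs_big at hg
    exact Finset.mem_filter.1 hg
  obtain ⟨t, ht⟩ : (D.T 0 g).Nonempty := Finset.card_pos.1 (by omega)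
  obtain ⟨s, hs⟩ : (D.T 1 g).Nonempty := Finset.card_pos.1 (by omega)
  have hp0 := Finset.mem_product.1 ((bs_sub D hg'.1).1 t ht)
  have hp1 := Finset.mem_product.1 ((bs_sub D hg'.1).2 s hs)
  have hx0 : 1 ≤ (D.X 0).card := Finset.card_pos.2 ⟨_, hp0.1⟩
  have hx1 : 1 ≤ (D.X 1).card := Finset.card_pos.2 ⟨_, hp0.2⟩
  have hx2 : 1 ≤ (D.X 2).card := Finset.card_pos.2 ⟨_, hp1.1⟩
  have hx3 : 1 ≤ (D.X 3).card := Finset.card_pos.2 ⟨_, hp1.2⟩
  have h01 : 1 ≤ (D.X 0).card * (D.X 1).card := Nat.mul_pos hx0 hx1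
  have h23 : 1 ≤ (D.X 2).card * (D.X 3).card := Nat.mul_pos hx2 hx3
  have hN : D.N = ((D.X 0).card * (D.X 1).card) * ((D.X 2).card * (D.X 3).card) := by
    unfold L2D.N
    rw [Fin.prod_univ_four]
    ring
  have hN' : D.N = ((D.X 2).card * (D.X 3).card) * ((D.X 0).card * (D.X 1).card) := by
    rw [hN]
    ring
  have hs1 := (bs_side1 hK hB he D).trans
    (bs_num _ _ h01 h23 K B e₀ ε hB he hε)
  have hs0 := (bs_side0 hK hB he D).trans
    (bs_num _ _ h23 h01 K B e₀ ε hB he hε)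
  rw [← hN, ← hc₁] at hs1
  rw [← hN', ← hc₁] at hs0
  rw [Finset.sum_add_distrib, ← Finset.mul_sum, ← Finset.mul_sum] at hle
  have hK'0 : (0 : ℝ) ≤ (K' : ℝ) ^ 2 := by positivity
  calc D.wt ≤ _ := hle
    _ ≤ (K' : ℝ) ^ 2 * (c₁ * (D.N : ℝ) ^ (1 + ε)) + (K' : ℝ) ^ 2 * (c₁ * (D.N : ℝ) ^ (1 + ε)) :=
        add_le_add (mul_le_mul_of_nonneg_left hs0 hK'0) (mul_le_mul_of_nonneg_left hs1 hK'0)
    _ = 2 * (K' ^ 2 * c₁) * (D.N : ℝ) ^ (1 + ε) := by ring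

end Vale.Agent.P054.L3
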