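import Vale.Agent.P054.L2.Defs

/-! Block L3 = generalised two lines lemma of P054: threshold `K`, base exponent `1 + e₀`. -/

set_option linter.all false
set_option autoImplicit false

namespace Vale.Agent.P054.L3

open Finset MvPolynomial
open Vale.Agent.P054.L2 (V3 sqd lpt lineSet trk ONF coord emb InFlat OnFlat)

/-- the weight of a pair of pieces with `x` and `y` points, threshold `K` -/
def psi (K x y : ℕ) : ℕ := if K ≤ x ∧ K ≤ y then x * y * min x y else 0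

open scoped Classical in
/-- Data of the two lines lemma. `X 0` = first source set, `X 1` = first target set, `X 2`, `X 3`
the second source and target set. For `g ∈ G`: four lines `t ↦ lpt (p i g) (v i g) t`; the `T 0 g`
are the parameters of matched pairs on the first line, `T 1 g` on the second line. -/
structure L2D (K : ℕ) (B e₀ : ℝ) (ι : Type) where
  G : Finset ι
  X : Fin 4 → Finset V3
  p : Fin 4 → ι → V3
  v : Fin 4 → ι → V3
  T : Fin 2 → ι → Finset ℝ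
  hv : ∀ i, ∀ g ∈ G, v i g ≠ 0
  hX : ∀ i, ∀ g ∈ G, ∀ t ∈ T (trk i) g, lpt (p i g) (v i g) t ∈ X i
  hiso : ∀ g ∈ G, ∀ t ∈ T 0 g, ∀ s ∈ T 1 g,
    sqd (lpt (p 0 g) (v 0 g) t) (lpt (p 2 g) (v 2 g) s) =
      sqd (lpt (p 1 g) (v 1 g) t) (lpt (p 3 g) (v 3 g) s)
  hJ : ∀ S₁ S₂ : Finset (V3 × V3),
    ((G.filter (fun g =>
      K ≤ ((T 0 g).filter (fun t =>
        (lpt (p 0 g) (v 0 g) t, lpt (p 1 g) (v 1 g) t) ∈ S₁)).card ∧
      K ≤ ((T 1 g).filter (fun t =>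
        (lpt (p 2 g) (v 2 g) t, lpt (p 3 g) (v 3 g) t) ∈ S₂)).card)).card : ℝ)
      ≤ B * ((S₁.card * S₂.card : ℕ) : ℝ) ^ (1 + e₀)

/-- the weighted number of elements of `G` -/
def L2D.wt {K : ℕ} {B e₀ : ℝ} {ι : Type} (D : L2D K B e₀ ι) : ℝ :=
  ∑ g ∈ D.G, (psi K (D.T 0 g).card (D.T 1 g).card : ℝ)

/-- the product of the four cardinalities -/
def L2D.N {K : ℕ} {B e₀ : ℝ} {ι : Type} (D : L2D K B e₀ ι) : ℕ := ∏ i, (D.X i).card

/-- restriction of the data to fewer `g`, fewer parameters and smaller sets -/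
def L2D.restrict {K : ℕ} {B e₀ : ℝ} {ι : Type} (D : L2D K B e₀ ι) (G' : Finset ι) (hG : G' ⊆ D.G)
    (X' : Fin 4 → Finset V3) (T' : Fin 2 → ι → Finset ℝ)
    (hT : ∀ k, ∀ g ∈ G', T' k g ⊆ D.T k g)
    (hX : ∀ i, ∀ g ∈ G', ∀ t ∈ T' (trk i) g, lpt (D.p i g) (D.v i g) t ∈ X' i) :
    L2D K B e₀ ι where
  G := G'
  X := X'
  p := D.p
  v := D.v
  T := T'
  hv := fun i g hg => D.hv i g (hG hg)
  hX := hX
  hiso := fun g hg t ht s hs => D.hiso g (hG hg) t (hT 0 g hg ht) s (hT 1 g hg hs)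
  hJ := by
    classical
    intro S₁ S₂
    refine le_trans (Nat.cast_le.2 (Finset.card_le_card ?_)) (D.hJ S₁ S₂)
    intro g hg
    rw [Finset.mem_filter] at hg ⊢
    refine ⟨hG hg.1, le_trans hg.2.1 (Finset.card_le_card ?_),
      le_trans hg.2.2 (Finset.card_le_card ?_)⟩
    · exact Finset.filter_subset_filter _ (hT 0 g hg.1)
    · exact Finset.filter_subset_filter _ (hT 1 g hg.1)

/-- the bound for all data with `X i` in a flat of dimension `f i` -/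
def Claim (K : ℕ) (B e₀ : ℝ) (f : Fin 4 → ℕ) (ε C : ℝ) : Prop :=
  ∀ (ι : Type) (D : L2D K B e₀ ι), (∀ i, OnFlat (f i) (D.X i)) →
    D.wt ≤ C * (D.N : ℝ) ^ (1 + ε)

/-- the bound is known for all smaller dimension types -/
def LowClaims (K : ℕ) (B e₀ : ℝ) (f : Fin 4 → ℕ) (ε : ℝ) : Prop :=
  ∀ f' : Fin 4 → ℕ, (∀ i, 1 ≤ f' i ∧ f' i ≤ f i) → f' ≠ f →
    ∃ C : ℝ, 0 ≤ C ∧ Claim K B e₀ f' ε C

/-- the base bound: few points on one of the two lines -/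
def BaseClaim (K : ℕ) (B e₀ ε : ℝ) : Prop :=
  ∀ K' : ℕ, ∃ C' : ℝ, 0 ≤ C' ∧ ∀ (ι : Type) (D : L2D K B e₀ ι),
    (∀ g ∈ D.G, (D.T 0 g).card < K' ∨ (D.T 1 g).card < K') → D.wt ≤ C' * (D.N : ℝ) ^ (1 + ε)

end Vale.Agent.P054.L3
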