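import Vale.Agent.P054.L3.Main

/-! Block L3, interface for isometries `g = (Q, v)`. -/

set_option linter.all false
set_option autoImplicit false

namespace Vale.Agent.P054.L3

open Finset MvPolynomial Matrix
open Vale.Agent.P054.L2 (V3 sqd lpt lineSet trk ONF coord emb InFlat OnFlat)

/-- isometries as pairs -/
abbrev Mot := Matrix (Fin 3) (Fin 3) ℝ × (Fin 3 → ℝ)

/-- parameter of a point on a line -/
noncomputable def prm (p v a : V3) : ℝ := (∑ k, (a k - p k) * v k) / (∑ k, v k * v k)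

theorem prm_lpt (p v : V3) (hv : v ≠ 0) (t : ℝ) : prm p v (lpt p v t) = t := by
  have h : (∑ k, v k * v k) ≠ 0 := by
    intro h
    apply hv
    funext k
    have := (Finset.sum_eq_zero_iff_of_nonneg (fun k _ => mul_self_nonneg (v k))).1 h k (mem_univ k)
    simpa using this
  unfold prm lpt
  rw [div_eq_iff h, Finset.mul_sum]
  refine Finset.sum_congr rfl (fun k _ => ?_)
  simp only [Pi.add_apply, Pi.smul_apply, smul_eq_mul]
  ring

theorem sqd_mot (g : Mot) (hg : g.1ᵀ * g.1 = 1) (a b : V3) :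
    sqd (g.1.mulVec a + g.2) (g.1.mulVec b + g.2) = sqd a b := by
  unfold sqd
  have h1 : ∀ x : V3, (∑ k, (x k) ^ 2) = x ⬝ᵥ x := by
    intro x
    unfold dotProduct
    exact Finset.sum_congr rfl (fun k _ => by ring)
  have h2 : (∑ k, ((g.1.mulVec a + g.2) k - (g.1.mulVec b + g.2) k) ^ 2) =
      (g.1.mulVec (a - b)) ⬝ᵥ (g.1.mulVec (a - b)) := by
    rw [← h1]
    refine Finset.sum_congr rfl (fun k _ => ?_)
    rw [Matrix.mulVec_sub]
    simp only [Pi.add_apply, Pi.sub_apply]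
    ring
  have h3 : (∑ k, (a k - b k) ^ 2) = (a - b) ⬝ᵥ (a - b) := by
    rw [← h1]
    exact Finset.sum_congr rfl (fun k _ => rfl)
  rw [h2, h3, Matrix.dotProduct_mulVec, ← Matrix.mulVec_transpose, Matrix.mulVec_mulVec, hg,
    Matrix.one_mulVec]

theorem mot_lpt (g : Mot) (p v : V3) (t : ℝ) :
    lpt (g.1.mulVec p + g.2) (g.1.mulVec v) t = g.1.mulVec (lpt p v t) + g.2 := by
  unfold lpt
  rw [Matrix.mulVec_add, Matrix.mulVec_smul]
  abel

theorem mot_ne (g : Mot) (hg : g.1ᵀ * g.1 = 1) (v : V3) (hv : v ≠ 0) : g.1.mulVec v ≠ 0 := by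
  intro h
  apply hv
  have : g.1ᵀ.mulVec (g.1.mulVec v) = v := by
    rw [Matrix.mulVec_mulVec, hg, Matrix.one_mulVec]
  rw [h, Matrix.mulVec_zero] at this
  exact this.symm

open scoped Classical in
/-- matched points on a line -/
noncomputable def mtl (X Y : Finset V3) (g : Mot) (p v : V3) : Finset V3 :=
  X.filter (fun a => a ∈ lineSet p v ∧ g.1.mulVec a + g.2 ∈ Y)

open scoped Classical in
/-- matched pairs of `S` on a line -/
noncomputable def mps (S : Finset (V3 × V3)) (g : Mot) (p v : V3) : Finset (V3 × V3) :=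
  S.filter (fun s => s.1 ∈ lineSet p v ∧ g.1.mulVec s.1 + g.2 = s.2)

theorem card_prm (X Y : Finset V3) (g : Mot) (p v : V3) (hv : v ≠ 0) :
    ((mtl X Y g p v).image (prm p v)).card = (mtl X Y g p v).card := by
  classical
  refine Finset.card_image_of_injOn ?_
  intro a ha b hb hab
  have ha' : a ∈ lineSet p v := (mem_filter.1 ha).2.1
  have hb' : b ∈ lineSet p v := (mem_filter.1 hb).2.1
  obtain ⟨t, rfl⟩ := ha'
  obtain ⟨s, rfl⟩ := hb'
  rw [prm_lpt p v hv, prm_lpt p v hv] at hab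
  rw [hab]

theorem mem_prm {X Y : Finset V3} {g : Mot} {p v : V3} (hv : v ≠ 0) {t : ℝ}
    (ht : t ∈ (mtl X Y g p v).image (prm p v)) :
    lpt p v t ∈ X ∧ g.1.mulVec (lpt p v t) + g.2 ∈ Y := by
  classical
  rw [mem_image] at ht
  obtain ⟨a, ha, rfl⟩ := ht
  have h := (mem_filter.1 ha)
  obtain ⟨h1, h2, h3⟩ := h
  obtain ⟨t, rfl⟩ := h2
  rw [prm_lpt p v hv]
  exact ⟨h1, h3⟩

open scoped Classical in
theorem card_filter_le_mps (S : Finset (V3 × V3)) (g : Mot) (p v : V3) (hv : v ≠ 0)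
    (T : Finset ℝ) :
    (T.filter (fun t => (lpt p v t, lpt (g.1.mulVec p + g.2) (g.1.mulVec v) t) ∈ S)).card ≤
      (mps S g p v).card := by
  refine Finset.card_le_card_of_injOn
    (fun t => (lpt p v t, lpt (g.1.mulVec p + g.2) (g.1.mulVec v) t)) ?_ ?_
  · intro t ht
    have h := (mem_filter.1 ht).2
    unfold mps
    rw [mem_coe, mem_filter]
    exact ⟨h, ⟨t, rfl⟩, (mot_lpt g p v t).symm⟩
  · intro t ht s hs hts
    have h := congrArg Prod.fst hts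
    simp only at h
    have h2 := congrArg (prm p v) h
    rwa [prm_lpt p v hv, prm_lpt p v hv] at h2

open scoped Classical in
/-- **Two lines lemma for isometries.** -/
theorem two_lines_iso (K : ℕ) (hK : 2 ≤ K) (B e₀ : ℝ) (hB : 0 ≤ B) (he : 0 ≤ e₀) (ε : ℝ)
    (hε : e₀ < ε) : ∃ C : ℝ, 0 ≤ C ∧
    ∀ (X₁ Y₁ X₂ Y₂ : Finset V3) (G : Finset Mot) (p₁ v₁ p₂ v₂ : Mot → V3),
      (∀ g ∈ G, g.1ᵀ * g.1 = 1) → (∀ g ∈ G, v₁ g ≠ 0) → (∀ g ∈ G, v₂ g ≠ 0) →
      (∀ S₁ S₂ : Finset (V3 × V3),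
        ((G.filter (fun g => K ≤ (mps S₁ g (p₁ g) (v₁ g)).card ∧
          K ≤ (mps S₂ g (p₂ g) (v₂ g)).card)).card : ℝ) ≤
            B * ((S₁.card * S₂.card : ℕ) : ℝ) ^ (1 + e₀)) →
      ∑ g ∈ G, (psi K (mtl X₁ Y₁ g (p₁ g) (v₁ g)).card (mtl X₂ Y₂ g (p₂ g) (v₂ g)).card : ℝ) ≤
        C * ((X₁.card * Y₁.card * X₂.card * Y₂.card : ℕ) : ℝ) ^ (1 + ε) := by
  obtain ⟨C, hC, h⟩ := two_lines K hK B e₀ hB he ε hε
  refine ⟨C, hC, ?_⟩
  intro X₁ Y₁ X₂ Y₂ G p₁ v₁ p₂ v₂ horth hv₁ hv₂ hJ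
  let D : L2D K B e₀ Mot :=
    { G := G
      X := ![X₁, Y₁, X₂, Y₂]
      p := ![p₁, fun g => g.1.mulVec (p₁ g) + g.2, p₂, fun g => g.1.mulVec (p₂ g) + g.2]
      v := ![v₁, fun g => g.1.mulVec (v₁ g), v₂, fun g => g.1.mulVec (v₂ g)]
      T := ![fun g => (mtl X₁ Y₁ g (p₁ g) (v₁ g)).image (prm (p₁ g) (v₁ g)),
        fun g => (mtl X₂ Y₂ g (p₂ g) (v₂ g)).image (prm (p₂ g) (v₂ g))]
      hv := by
        intro i g hg
        fin_cases i
        · exact hv₁ g hg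
        · exact mot_ne g (horth g hg) _ (hv₁ g hg)
        · exact hv₂ g hg
        · exact mot_ne g (horth g hg) _ (hv₂ g hg)
      hX := by
        intro i g hg t ht
        fin_cases i
        · exact (mem_prm (hv₁ g hg) ht).1
        · change lpt (g.1.mulVec (p₁ g) + g.2) (g.1.mulVec (v₁ g)) t ∈ Y₁
          rw [mot_lpt]
          exact (mem_prm (hv₁ g hg) ht).2
        · exact (mem_prm (hv₂ g hg) ht).1
        · change lpt (g.1.mulVec (p₂ g) + g.2) (g.1.mulVec (v₂ g)) t ∈ Y₂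
          rw [mot_lpt]
          exact (mem_prm (hv₂ g hg) ht).2
      hiso := by
        intro g hg t ht s hs
        change sqd (lpt (p₁ g) (v₁ g) t) (lpt (p₂ g) (v₂ g) s) =
          sqd (lpt (g.1.mulVec (p₁ g) + g.2) (g.1.mulVec (v₁ g)) t)
            (lpt (g.1.mulVec (p₂ g) + g.2) (g.1.mulVec (v₂ g)) s)
        rw [mot_lpt, mot_lpt, sqd_mot g (horth g hg)]
      hJ := by
        intro S₁ S₂
        refine le_trans (Nat.cast_le.2 (Finset.card_le_card ?_)) (hJ S₁ S₂)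
        intro g hg
        rw [mem_filter] at hg ⊢
        refine ⟨hg.1, le_trans hg.2.1 ?_, le_trans hg.2.2 ?_⟩
        · exact card_filter_le_mps S₁ g (p₁ g) (v₁ g) (hv₁ g hg.1) _
        · exact card_filter_le_mps S₂ g (p₂ g) (v₂ g) (hv₂ g hg.1) _ }
  have h2 := h Mot D
  have h3 : D.wt = ∑ g ∈ G, (psi K (mtl X₁ Y₁ g (p₁ g) (v₁ g)).card
      (mtl X₂ Y₂ g (p₂ g) (v₂ g)).card : ℝ) := by
    change ∑ g ∈ G, (psi K ((mtl X₁ Y₁ g (p₁ g) (v₁ g)).image (prm (p₁ g) (v₁ g))).card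
      ((mtl X₂ Y₂ g (p₂ g) (v₂ g)).image (prm (p₂ g) (v₂ g))).card : ℝ) = _
    refine Finset.sum_congr rfl (fun g hg => ?_)
    rw [card_prm _ _ _ _ _ (hv₁ g hg), card_prm _ _ _ _ _ (hv₂ g hg)]
  have h4 : D.N = X₁.card * Y₁.card * X₂.card * Y₂.card := by
    change ∏ i, ((![X₁, Y₁, X₂, Y₂] : Fin 4 → Finset V3) i).card = _
    rw [Fin.prod_univ_four]
    rfl
  rw [h3, h4] at h2
  exact h2

end Vale.Agent.P054.L3
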