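import Vale.Agent.P054.L2.LineRed
import Vale.Agent.P054.L3.Defs

/-! Block L2, leaf LINERED: reduction of one of the four sets to lines.
Proof: `Ls = D.G.image (fun g => lineSet (D.p i g) (D.v i g))`. For `l ∈ Ls` restrict the data to
`G_l = {g | line i of g is l}`, `X' i = (D.X i).filter (· ∈ l)`, `X' j = D.X j` (`D.restrict`, `T`
unchanged); `OnFlat 1` by `onFlat_line`. Hence
`wt = ∑_l wt_l ≤ C ∑_l (#(X i ∩ l) * R)^(1+ε) ≤ C (∑_l #(X i ∩ l)) * #(X i)^ε * R^(1+ε)`, `R` = product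
of the other three cardinalities, and `∑_l #(X i ∩ l) = ∑_x #{l ∋ x} ≤ M #(X i)`. -/

set_option linter.all false
set_option autoImplicit false

namespace Vale.Agent.P054.L3

open Finset MvPolynomial
open Vale.Agent.P054.L2 (V3 sqd lpt lineSet trk ONF coord emb InFlat OnFlat onFlat_line lr176_count lr176_real)

open scoped Classical in
theorem lr176_piece (K : ℕ) (B e₀ : ℝ) (ε : ℝ) (f : Fin 4 → ℕ) (i : Fin 4) (C : ℝ)
    (hcl : Claim K B e₀ (Function.update f i 1) ε C) {ι : Type} (D : L2D K B e₀ ι)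
    (hflat : ∀ j, j ≠ i → OnFlat (f j) (D.X j)) (l : Set V3)
    (hl : l ∈ D.G.image (fun g => lineSet (D.p i g) (D.v i g))) :
    ∑ g ∈ D.G.filter (fun g => lineSet (D.p i g) (D.v i g) = l),
      (psi K (D.T 0 g).card (D.T 1 g).card : ℝ) ≤
      C * (((((D.X i).filter (fun x => x ∈ l)).card : ℝ) *
        ((∏ j ∈ univ.erase i, (D.X j).card : ℕ) : ℝ)) ^ (1 + ε)) := by
  obtain ⟨g0, hg0, hg0l⟩ := Finset.mem_image.1 hl
  set X' : Fin 4 → Finset V3 := Function.update D.X i ((D.X i).filter (fun x => x ∈ l)) with hX'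
  have hX'i : X' i = (D.X i).filter (fun x => x ∈ l) := by simp [hX']
  have hX'j : ∀ j, j ≠ i → X' j = D.X j := fun j hj => by simp [hX', hj]
  let D' : L2D K B e₀ ι := D.restrict (D.G.filter (fun g => lineSet (D.p i g) (D.v i g) = l))
    (Finset.filter_subset _ _) X' D.T (fun k g _ => Finset.Subset.refl _) (by
      intro j g hg t ht
      rw [Finset.mem_filter] at hg
      have h1 := D.hX j g hg.1 t ht
      by_cases hj : j = i
      · subst hj
        rw [hX'i, Finset.mem_filter]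
        refine ⟨h1, ?_⟩
        rw [← hg.2]
        exact ⟨t, rfl⟩
      · rw [hX'j j hj]
        exact h1)
  have h2 := hcl ι D' (by
    intro j
    by_cases hj : j = i
    · subst hj
      rw [Function.update_self]
      change OnFlat 1 (X' j)
      rw [hX'i]
      refine onFlat_line (D.p j g0) (D.v j g0) (D.hv j g0 hg0) _ ?_
      intro x hx
      rw [Finset.mem_filter] at hx
      rw [hg0l]
      exact hx.2
    · rw [Function.update_of_ne hj]
      change OnFlat (f j) (X' j)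
      rw [hX'j j hj]
      exact hflat j hj)
  have h3 : D'.wt = ∑ g ∈ D.G.filter (fun g => lineSet (D.p i g) (D.v i g) = l),
      (psi K (D.T 0 g).card (D.T 1 g).card : ℝ) := rfl
  have h4 : D'.N = ((D.X i).filter (fun x => x ∈ l)).card * ∏ j ∈ univ.erase i, (D.X j).card := by
    change ∏ j, (X' j).card = _
    rw [← Finset.mul_prod_erase univ (fun j => (X' j).card) (Finset.mem_univ i), hX'i]
    congr 1
    refine Finset.prod_congr rfl fun j hj => ?_
    rw [hX'j j (Finset.ne_of_mem_erase hj)]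
  rw [h3, h4] at h2
  push_cast at h2 ⊢
  exact h2

open scoped Classical in
theorem line_red (K : ℕ) (B e₀ : ℝ) (ε : ℝ) (hε : 0 < ε) (f : Fin 4 → ℕ) (i : Fin 4) (C : ℝ) (hC : 0 ≤ C)
    (hcl : Claim K B e₀ (Function.update f i 1) ε C) (M : ℕ) {ι : Type} (D : L2D K B e₀ ι)
    (hflat : ∀ j, j ≠ i → OnFlat (f j) (D.X j))
    (hM : ∀ x ∈ D.X i, ((D.G.image (fun g => lineSet (D.p i g) (D.v i g))).filter
      (fun l => x ∈ l)).card ≤ M) :
    D.wt ≤ C * M * (D.N : ℝ) ^ (1 + ε) := by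
  have hA0 : (0 : ℝ) ≤ ((D.X i).card : ℝ) := Nat.cast_nonneg _
  have hR0 : (0 : ℝ) ≤ ((∏ j ∈ univ.erase i, (D.X j).card : ℕ) : ℝ) := Nat.cast_nonneg _
  have hε1 : (1 : ℝ) + ε ≠ 0 := by positivity
  have hN : D.N = (D.X i).card * ∏ j ∈ univ.erase i, (D.X j).card :=
    (Finset.mul_prod_erase univ (fun j => (D.X j).card) (Finset.mem_univ i)).symm
  have h1 : D.wt = ∑ l ∈ D.G.image (fun g => lineSet (D.p i g) (D.v i g)),
      ∑ g ∈ D.G.filter (fun g => lineSet (D.p i g) (D.v i g) = l),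
      (psi K (D.T 0 g).card (D.T 1 g).card : ℝ) :=
    (Finset.sum_fiberwise_of_maps_to (fun g hg => Finset.mem_image_of_mem _ hg) _).symm
  have h8 := lr176_count (α := V3) (D.G.image (fun g => lineSet (D.p i g) (D.v i g))) (D.X i) M hM
  have h10 : (∑ l ∈ D.G.image (fun g => lineSet (D.p i g) (D.v i g)),
      (((D.X i).filter (fun x => x ∈ l)).card : ℝ)) ≤ (M : ℝ) * ((D.X i).card : ℝ) := by
    exact_mod_cast h8
  have h11 : (0 : ℝ) ≤ C * (((D.X i).card : ℝ) ^ ε *
      ((∏ j ∈ univ.erase i, (D.X j).card : ℕ) : ℝ) ^ (1 + ε)) :=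
    mul_nonneg hC (mul_nonneg (Real.rpow_nonneg hA0 _) (Real.rpow_nonneg hR0 _))
  rw [h1]
  refine le_trans (Finset.sum_le_sum fun l hl =>
    le_trans (lr176_piece K B e₀ ε f i C hcl D hflat l hl)
      (lr176_real ε hε C hC _ (D.X i).card _ (Finset.card_le_card (Finset.filter_subset _ _)))) ?_
  rw [← Finset.mul_sum]
  refine le_trans (mul_le_mul_of_nonneg_left h10 h11) (le_of_eq ?_)
  rw [hN, Nat.cast_mul, Real.mul_rpow hA0 hR0, Real.rpow_one_add' hA0 hε1]
  ring

end Vale.Agent.P054.L3
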