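import Vale.Agent.P054.L3.Step

/-! Block L3, output: the two lines lemma with threshold `K` and base exponent `1 + e₀`. -/

set_option linter.all false
set_option autoImplicit false

namespace Vale.Agent.P054.L3

open Finset MvPolynomial
open Vale.Agent.P054.L2 (V3 sqd lpt lineSet trk ONF coord emb InFlat OnFlat onFlat_three)

theorem claims (K : ℕ) (hK : 2 ≤ K) (B e₀ : ℝ) (ε : ℝ) (hε : 0 < ε) (hbase : BaseClaim K B e₀ ε)
    (n : ℕ) : ∀ f : Fin 4 → ℕ,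
    (∀ j, 1 ≤ f j ∧ f j ≤ 3) → ∑ j, f j = n → ∃ C : ℝ, 0 ≤ C ∧ Claim K B e₀ f ε C := by
  induction n using Nat.strong_induction_on with
  | _ n ih =>
    intro f hf hn
    refine step K hK B e₀ ε hε f hf hbase ?_
    intro f' hf' hne
    refine ih (∑ j, f' j) ?_ f' (fun j => ⟨(hf' j).1, le_trans (hf' j).2 (hf j).2⟩) rfl
    rw [← hn]
    refine lt_of_le_of_ne (Finset.sum_le_sum (fun j _ => (hf' j).2)) ?_
    intro h
    apply hne
    funext j
    exact (Finset.sum_eq_sum_iff_of_le (fun j _ => (hf' j).2)).1 h j (Finset.mem_univ j)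

/-- **Two lines lemma.** -/
theorem two_lines (K : ℕ) (hK : 2 ≤ K) (B e₀ : ℝ) (hB : 0 ≤ B) (he : 0 ≤ e₀) (ε : ℝ)
    (hε : e₀ < ε) : ∃ C : ℝ, 0 ≤ C ∧
    ∀ (ι : Type) (D : L2D K B e₀ ι), D.wt ≤ C * (D.N : ℝ) ^ (1 + ε) := by
  obtain ⟨C, hC, h⟩ := claims K hK B e₀ ε (lt_of_le_of_lt he hε) (base K hK B e₀ hB he ε hε) _
    (fun _ => 3) (fun _ => by norm_num) rfl
  exact ⟨C, hC, fun ι D => h ι D (fun i => onFlat_three _)⟩

end Vale.Agent.P054.L3
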