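import Vale.Agent.P054.L2.StepC
import Vale.Agent.P054.L3.StepB

/-! Block L2, STEP, part C: the good elements with the induction hypothesis. -/

set_option linter.all false
set_option autoImplicit false

namespace Vale.Agent.P054.L3

open Finset MvPolynomial
open Vale.Agent.P054.L2 (V3 sqd lpt lineSet trk ONF coord emb InFlat OnFlat InCell cell OnFlat.mono cell_subset rpow_aux)

theorem piece_N {K : ℕ} {B e₀ : ℝ} {ι : Type} (D : L2D K B e₀ ι) (f : Fin 4 → ℕ) (m : ℕ)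
    (o : Fin 4 → V3) (e : ∀ i, Fin (f i) → V3)
    (q : ∀ i, Fin (f i * m) → MvPolynomial (Fin (f i)) ℝ)
    (hqc : ∀ i, ∀ σ : Fin (f i * m) → Bool,
      2 ^ (f i * m) * (cell (o i) (e i) (D.X i) (q i) σ).card ≤ (D.X i).card)
    (τ : ∀ i, Fin (f i * m) → Bool) :
    2 ^ (m * ∑ i, f i) * (piece D o e q τ).N ≤ D.N := by
  have h6 : (piece D o e q τ).N = ∏ i, (cell (o i) (e i) (D.X i) (q i) (τ i)).card := rfl
  have h7 : D.N = ∏ i, (D.X i).card := rfl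
  have h8 : 2 ^ (m * ∑ i, f i) = ∏ i, 2 ^ (f i * m) := by
    rw [Finset.prod_pow_eq_pow_sum, Finset.mul_sum]
    congr 1
    exact Finset.sum_congr rfl (fun i _ => mul_comm _ _)
  rw [h6, h7, h8, ← Finset.prod_mul_distrib]
  exact Finset.prod_le_prod' (fun i _ => hqc i (τ i))

theorem good_ih {K : ℕ} (hK : 2 ≤ K) {B e₀ : ℝ} {ι : Type} (D : L2D K B e₀ ι) (f : Fin 4 → ℕ) (hf : ∀ i, 1 ≤ f i) (m : ℕ)
    (hm1 : 1 ≤ m) (o : Fin 4 → V3) (e : ∀ i, Fin (f i) → V3)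
    (hfl : ∀ i, InFlat (o i) (e i) (D.X i))
    (q : ∀ i, Fin (f i * m) → MvPolynomial (Fin (f i)) ℝ)
    (hqc : ∀ i, ∀ σ : Fin (f i * m) → Bool,
      2 ^ (f i * m) * (cell (o i) (e i) (D.X i) (q i) σ).card ≤ (D.X i).card)
    (d : ℕ) (hd1 : 1 ≤ d) (hd : ∑ i, ∑ j, (q i j).totalDegree ≤ d)
    (hT : ∀ k, ∀ g ∈ D.G, 4 * (2 * d + 1) * K ≤ (D.T k g).card)
    (hg : ∀ g ∈ D.G, ∀ i j, ∃ t : ℝ,
      eval (coord (o i) (e i) (lpt (D.p i g) (D.v i g) t)) (q i j) ≠ 0)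
    (ε C : ℝ) (hε : 0 < ε) (hC : 0 ≤ C)
    (hm : (((64 * (2 * d + 1) * ((10 * 81 ^ (∑ i, f i - 1)) * d ^ (∑ i, f i - 1)) : ℕ)) : ℝ)
      ≤ (1 / 2) * (((2 ^ (m * ∑ i, f i) : ℕ) : ℝ)) ^ (1 + ε))
    (hN : 0 < D.N)
    (ih : ∀ E : L2D K B e₀ ι, E.N < D.N → (∀ i, OnFlat (f i) (E.X i)) → E.wt ≤ C * (E.N : ℝ) ^ (1 + ε)) :
    D.wt ≤ (1 / 2) * (C * (D.N : ℝ) ^ (1 + ε)) := by
  have hPwpos : (0 : ℝ) < ((2 ^ (m * ∑ i, f i) : ℕ) : ℝ) := by positivity
  have hN0 : (0 : ℝ) ≤ (D.N : ℝ) := Nat.cast_nonneg _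
  have hF1 : 1 ≤ ∑ i, f i := by
    rw [Fin.sum_univ_four]
    have := hf 0
    omega
  refine le_trans (good_bound hK D f hf (fun i => Fin (f i * m)) o e hfl q d hd1 hd hT hg
    (C * ((D.N : ℝ) / ((2 ^ (m * ∑ i, f i) : ℕ) : ℝ)) ^ (1 + ε))
    (mul_nonneg hC (Real.rpow_nonneg (div_nonneg hN0 hPwpos.le) _)) ?_)
    (rpow_aux _ _ _ _ _ hC hN0 hPwpos hm)
  intro τ
  have hEN := piece_N D f m o e q hqc τ
  have hlt : (piece D o e q τ).N < D.N := by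
    have h9 : 2 ≤ 2 ^ (m * ∑ i, f i) := by
      calc 2 = 2 ^ 1 := by norm_num
        _ ≤ 2 ^ (m * ∑ i, f i) := Nat.pow_le_pow_right (by norm_num)
          (Nat.mul_pos hm1 hF1)
    have h10 : 2 * (piece D o e q τ).N ≤ 2 ^ (m * ∑ i, f i) * (piece D o e q τ).N :=
      Nat.mul_le_mul_right _ h9
    omega
  have h11 := ih _ hlt (fun i => OnFlat.mono ⟨o i, e i, hfl i⟩ (cell_subset _ _ _ _ _))
  refine le_trans h11 (mul_le_mul_of_nonneg_left ?_ hC)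
  refine Real.rpow_le_rpow (Nat.cast_nonneg _) ?_ (by linarith)
  rw [le_div_iff₀ hPwpos, mul_comm]
  exact_mod_cast hEN

/-- restriction to fewer `g` -/
def L2D.sub {K : ℕ} {B e₀ : ℝ} {ι : Type} (D : L2D K B e₀ ι) (G' : Finset ι) (hG : G' ⊆ D.G) : L2D K B e₀ ι :=
  D.restrict G' hG D.X D.T (fun k g hg => subset_refl _) (fun i g hg t ht => D.hX i g (hG hg) t ht)

theorem wt_nonneg {K : ℕ} {B e₀ : ℝ} {ι : Type} (D : L2D K B e₀ ι) : 0 ≤ D.wt :=
  Finset.sum_nonneg (fun _ _ => Nat.cast_nonneg _)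

theorem wt_zero {K : ℕ} (hK : 2 ≤ K) {B e₀ : ℝ} {ι : Type} (D : L2D K B e₀ ι) (hN : D.N = 0) : D.wt = 0 := by
  unfold L2D.N at hN
  rw [Finset.prod_eq_zero_iff] at hN
  obtain ⟨i, _, hi⟩ := hN
  rw [Finset.card_eq_zero] at hi
  unfold L2D.wt
  refine Finset.sum_eq_zero (fun g hg => ?_)
  have hT : D.T (trk i) g = ∅ := by
    rw [Finset.eq_empty_iff_forall_notMem]
    intro t ht
    have := D.hX i g hg t ht
    rw [hi] at this
    exact absurd this (Finset.notMem_empty _)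
  have h2 : trk i = 0 ∨ trk i = 1 := by
    unfold trk; split_ifs <;> simp
  rcases h2 with h | h
  · rw [h] at hT
    rw [hT]
    have h9 : ¬ K ≤ 0 := by omega
    simp [psi, h9]
  · rw [h] at hT
    rw [hT]
    have h9 : ¬ K ≤ 0 := by omega
    simp [psi, h9]

open scoped Classical in
/-- splitting of the total weight -/
theorem wt_split {K : ℕ} {B e₀ : ℝ} {ι : Type} (D : L2D K B e₀ ι) (PA PG : ι → Prop) {I : Type} [Fintype I]
    (PW : I → ι → Prop) (h : ∀ g ∈ D.G, PA g ∨ (∃ i, PW i g) ∨ PG g) :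
    D.wt ≤ (D.sub (D.G.filter PA) (filter_subset _ _)).wt +
      (∑ i, (D.sub (D.G.filter (PW i)) (filter_subset _ _)).wt) +
      (D.sub (D.G.filter PG) (filter_subset _ _)).wt := by
  have e1 : ∀ (P : ι → Prop), (D.sub (D.G.filter P) (filter_subset _ _)).wt =
      ∑ g ∈ D.G, if P g then (psi K (D.T 0 g).card (D.T 1 g).card : ℝ) else 0 :=
    fun P => Finset.sum_filter _ _
  have e2 : (∑ i, (D.sub (D.G.filter (PW i)) (filter_subset _ _)).wt) =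
      ∑ g ∈ D.G, ∑ i, if PW i g then (psi K (D.T 0 g).card (D.T 1 g).card : ℝ) else 0 := by
    rw [Finset.sum_comm]
    exact Finset.sum_congr rfl (fun i _ => e1 _)
  rw [e1, e2, e1, ← Finset.sum_add_distrib, ← Finset.sum_add_distrib]
  unfold L2D.wt
  refine Finset.sum_le_sum (fun g hg => ?_)
  have hw0 : (0:ℝ) ≤ (psi K (D.T 0 g).card (D.T 1 g).card : ℝ) := Nat.cast_nonneg _
  generalize (psi K (D.T 0 g).card (D.T 1 g).card : ℝ) = w at hw0 ⊢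
  have hnn : ∀ P : Prop, (0:ℝ) ≤ if P then w else 0 := by
    intro P
    split_ifs
    · exact hw0
    · exact le_rfl
  have hsum0 : (0:ℝ) ≤ ∑ i, if PW i g then w else 0 :=
    Finset.sum_nonneg (fun i _ => hnn _)
  have hA := hnn (PA g)
  have hG := hnn (PG g)
  rcases h g hg with h1 | ⟨i, h1⟩ | h1
  · rw [if_pos h1]
    linarith
  · have h3 : w ≤ ∑ i, if PW i g then w else 0 := by
      refine le_trans ?_ (Finset.single_le_sum (f := fun i => if PW i g then w else 0)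
        (fun i _ => hnn _) (Finset.mem_univ i))
      simp only [h1, if_true, le_refl]
    linarith
  · rw [if_pos h1]
    linarith

theorem wt_split' {K : ℕ} {B e₀ : ℝ} {ι : Type} (D : L2D K B e₀ ι) (PA PG : ι → Prop) {I : Type} [Fintype I]
    (PW : I → ι → Prop) (h : ∀ g ∈ D.G, PA g ∨ (∃ i, PW i g) ∨ PG g) :
    ∃ (GA : Finset ι) (hA : GA ⊆ D.G) (GG : Finset ι) (hG : GG ⊆ D.G) (GW : I → Finset ι)
      (hW : ∀ i, GW i ⊆ D.G), (∀ g ∈ GA, PA g) ∧ (∀ g ∈ GG, PG g) ∧ (∀ i, ∀ g ∈ GW i, PW i g) ∧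
      D.wt ≤ (D.sub GA hA).wt + (∑ i, (D.sub (GW i) (hW i)).wt) + (D.sub GG hG).wt := by
  classical
  refine ⟨_, filter_subset (fun g => PA g) _, _, filter_subset (fun g => PG g) _, _,
    fun i => filter_subset (fun g => PW i g) _, fun g hg => (mem_filter.1 hg).2,
    fun g hg => (mem_filter.1 hg).2, fun i g hg => (mem_filter.1 hg).2, ?_⟩
  have := wt_split D PA PG PW h
  convert this

end Vale.Agent.P054.L3
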