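import Vale.Agent.P054.L3.WallRed
import Vale.Agent.P054.L3.Base
import Vale.Agent.P054.L3.StepC

/-! Block L2, STEP (helper413): one level of the partition + strong induction on `D.N`. -/

set_option linter.all false
set_option autoImplicit false

namespace Vale.Agent.P054.L3

open Finset MvPolynomial
open Vale.Agent.P054.L2 (V3 sqd lpt lineSet trk ONF coord emb InFlat OnFlat choose_m exists_cells)

theorem step (K : ℕ) (hK : 2 ≤ K) (B e₀ : ℝ) (ε : ℝ) (hε : 0 < ε) (f : Fin 4 → ℕ) (hf : ∀ j, 1 ≤ f j ∧ f j ≤ 3)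
    (hbase : BaseClaim K B e₀ ε)
    (hlow : LowClaims K B e₀ f ε) : ∃ C : ℝ, 0 ≤ C ∧ Claim K B e₀ f ε C := by
  classical
  have hF1 : 1 ≤ ∑ i, f i := by
    rw [Fin.sum_univ_four]
    have := (hf 0).1
    omega
  obtain ⟨m, hm1, hm⟩ := choose_m ε hε (∑ i, f i) hF1
  obtain ⟨d, hd⟩ : ∃ d, d = 72 * 2 ^ m := ⟨_, rfl⟩
  rw [← hd] at hm
  have hd1 : 1 ≤ d := by
    have : 1 ≤ 2 ^ m := Nat.one_le_two_pow
    omega
  obtain ⟨Cb, hCb0, hCb⟩ := hbase (4 * (2 * d + 1) * K)
  have hw := fun i : Fin 4 => wall_red K hK B e₀ ε hε f hf i hlow hbase d (f i) rfl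
  choose Cw hCw0 hCw using hw
  have hS0 : (0:ℝ) ≤ ∑ a : (Σ i : Fin 4, Fin (f i * m)), Cw a.1 :=
    Finset.sum_nonneg (fun a _ => hCw0 a.1)
  refine ⟨2 * (Cb + ∑ a : (Σ i : Fin 4, Fin (f i * m)), Cw a.1), by linarith, ?_⟩
  generalize hS : (∑ a : (Σ i : Fin 4, Fin (f i * m)), Cw a.1) = S at hS0 ⊢
  have hC0 : 0 ≤ 2 * (Cb + S) := by linarith
  have key : ∀ n : ℕ, ∀ (ι : Type) (D : L2D K B e₀ ι), D.N = n → (∀ i, OnFlat (f i) (D.X i)) →
      D.wt ≤ 2 * (Cb + S) * (D.N : ℝ) ^ (1 + ε) := by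
    intro n
    induction n using Nat.strong_induction_on with
    | _ n ih =>
      intro ι D hn hflat
      by_cases hN0 : D.N = 0
      · rw [wt_zero hK D hN0]
        exact mul_nonneg hC0 (Real.rpow_nonneg (Nat.cast_nonneg _) _)
      have hNpos : 0 < D.N := Nat.pos_of_ne_zero hN0
      choose o e hfl using hflat
      have hcells := fun i : Fin 4 => exists_cells (hf i).1 (hf i).2 (o i) (e i) (D.X i) m
      choose q hq0 hqd hqc using hcells
      have hdeg : ∑ i, ∑ j, (q i j).totalDegree ≤ d := by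
        calc ∑ i, ∑ j, (q i j).totalDegree ≤ ∑ i : Fin 4, 18 * 2 ^ m :=
              Finset.sum_le_sum (fun i _ => hqd i)
          _ = d := by rw [Finset.sum_const, Finset.card_univ, Fintype.card_fin, hd, smul_eq_mul]; ring
      have hdij : ∀ i j, (q i j).totalDegree ≤ d := by
        intro i j
        refine le_trans ?_ hdeg
        refine le_trans ?_ (Finset.single_le_sum (f := fun i => ∑ j, (q i j).totalDegree)
          (fun _ _ => Nat.zero_le _) (Finset.mem_univ i))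
        exact Finset.single_le_sum (f := fun j => (q i j).totalDegree)
          (fun _ _ => Nat.zero_le _) (Finset.mem_univ j)
      obtain ⟨GA, hGA, GG, hGG, GW, hGW, hPA, hPG, hPW, hsplit⟩ := wt_split' D
        (fun g => (D.T 0 g).card < 4 * (2 * d + 1) * K ∨ (D.T 1 g).card < 4 * (2 * d + 1) * K)
        (fun g => (4 * (2 * d + 1) * K ≤ (D.T 0 g).card ∧ 4 * (2 * d + 1) * K ≤ (D.T 1 g).card) ∧
          ∀ i j, ∃ t : ℝ, eval (coord (o i) (e i) (lpt (D.p i g) (D.v i g) t)) (q i j) ≠ 0)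
        (fun (a : Σ i : Fin 4, Fin (f i * m)) g => ∀ t : ℝ,
          eval (coord (o a.1) (e a.1) (lpt (D.p a.1 g) (D.v a.1 g) t)) (q a.1 a.2) = 0) (by
        intro g hg
        by_cases h1 : (D.T 0 g).card < 4 * (2 * d + 1) * K ∨ (D.T 1 g).card < 4 * (2 * d + 1) * K
        · exact Or.inl h1
        · by_cases h2 : ∃ (a : Σ i : Fin 4, Fin (f i * m)), ∀ t : ℝ,
            eval (coord (o a.1) (e a.1) (lpt (D.p a.1 g) (D.v a.1 g) t)) (q a.1 a.2) = 0
          · exact Or.inr (Or.inl h2)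
          · refine Or.inr (Or.inr ⟨?_, ?_⟩)
            · rw [not_or, not_lt, not_lt] at h1
              exact h1
            · intro i j
              by_contra h3
              apply h2
              refine ⟨⟨i, j⟩, fun t => ?_⟩
              by_contra h4
              exact h3 ⟨t, h4⟩)
      have hA : ∀ (G' : Finset ι) (hG' : G' ⊆ D.G), (∀ g ∈ G', (D.T 0 g).card < 4 * (2 * d + 1) * K ∨
          (D.T 1 g).card < 4 * (2 * d + 1) * K) → (D.sub G' hG').wt ≤ Cb * (D.N : ℝ) ^ (1 + ε) :=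
        fun G' hG' h => hCb ι (D.sub G' hG') h
      have hW : ∀ (a : (Σ i : Fin 4, Fin (f i * m))) (G' : Finset ι) (hG' : G' ⊆ D.G),
          (∀ g ∈ G', ∀ t : ℝ,
            eval (coord (o a.1) (e a.1) (lpt (D.p a.1 g) (D.v a.1 g) t)) (q a.1 a.2) = 0) →
          (D.sub G' hG').wt ≤ Cw a.1 * (D.N : ℝ) ^ (1 + ε) := by
        intro a G' hG' h
        exact hCw a.1 ι (D.sub G' hG')
          (fun j _ => ⟨o j, e j, hfl j⟩) (o a.1) (e a.1) (hfl a.1) (q a.1 a.2) (hq0 a.1 a.2)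
          (hdij a.1 a.2) h
      have hGd : ∀ (G' : Finset ι) (hG' : G' ⊆ D.G), (∀ g ∈ G',
          (4 * (2 * d + 1) * K ≤ (D.T 0 g).card ∧ 4 * (2 * d + 1) * K ≤ (D.T 1 g).card) ∧
          ∀ i j, ∃ t : ℝ, eval (coord (o i) (e i) (lpt (D.p i g) (D.v i g) t)) (q i j) ≠ 0) →
          (D.sub G' hG').wt ≤ 1 / 2 * (2 * (Cb + S) * (D.N : ℝ) ^ (1 + ε)) := by
        intro G' hG' h
        exact good_ih hK (D.sub G' hG') f (fun i => (hf i).1) m hm1 o e hfl q hqc d hd1 hdeg
          (fun k g hg => by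
            have h5 := (h g hg).1
            fin_cases k
            · exact h5.1
            · exact h5.2)
          (fun g hg => (h g hg).2) ε (2 * (Cb + S)) hε hC0 hm hNpos
          (fun E hE hEf => ih E.N (lt_of_lt_of_eq hE hn) ι E rfl hEf)
      refine le_trans hsplit ?_
      refine le_trans (add_le_add (add_le_add (hA _ _ hPA)
        (Finset.sum_le_sum (fun a _ => hW a _ _ (hPW a))))
        (hGd _ _ hPG)) (le_of_eq ?_)
      rw [← Finset.sum_mul, hS]
      ring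
  intro ι D hflat
  exact key _ ι D rfl hflat

end Vale.Agent.P054.L3
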