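import Vale.Agent.P054.L3.Defs
import Vale.Agent.P054.L2.Frames

/-! Block L3, WallThree part (1): the lines contained in finitely many planes (helper611). -/

set_option linter.all false
set_option autoImplicit false

namespace Vale.Agent.P054.L3

open Finset MvPolynomial
open Vale.Agent.P054.L2 (V3 sqd lpt lineSet trk ONF coord emb InFlat OnFlat)

open scoped Classical in
/-- one plane -/
theorem wtha_piece (K : ℕ) (B e₀ : ℝ) (ε : ℝ) (hε : 0 < ε) (f : Fin 4 → ℕ) (i : Fin 4) (C : ℝ)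
    (hC : 0 ≤ C) (hcl : Claim K B e₀ (Function.update f i 2) ε C) {ι : Type} (D : L2D K B e₀ ι)
    (hflat : ∀ j, j ≠ i → OnFlat (f j) (D.X j)) (Q : Set V3)
    (hQ : ∃ (n : V3) (c : ℝ), n ≠ 0 ∧ Q = {x | ∑ k, n k * x k = c}) :
    ∑ g ∈ D.G.filter (fun g => lineSet (D.p i g) (D.v i g) ⊆ Q),
      (psi K (D.T 0 g).card (D.T 1 g).card : ℝ) ≤ C * (D.N : ℝ) ^ (1 + ε) := by
  obtain ⟨n, c, hn, rfl⟩ := hQ
  set Q : Set V3 := {x | ∑ k, n k * x k = c} with hQd
  set X' : Fin 4 → Finset V3 := Function.update D.X i ((D.X i).filter (fun x => x ∈ Q)) with hX'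
  have hX'i : X' i = (D.X i).filter (fun x => x ∈ Q) := by simp [hX']
  have hX'j : ∀ j, j ≠ i → X' j = D.X j := fun j hj => by simp [hX', hj]
  let D' : L2D K B e₀ ι := D.restrict (D.G.filter (fun g => lineSet (D.p i g) (D.v i g) ⊆ Q))
    (Finset.filter_subset _ _) X' D.T (fun k g _ => Finset.Subset.refl _) (by
      intro j g hg t ht
      rw [Finset.mem_filter] at hg
      have h1 := D.hX j g hg.1 t ht
      by_cases hj : j = i
      · subst hj
        rw [hX'i, Finset.mem_filter]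
        exact ⟨h1, hg.2 ⟨t, rfl⟩⟩
      · rw [hX'j j hj]
        exact h1)
  have h2 := hcl ι D' (by
    intro j
    by_cases hj : j = i
    · subst hj
      rw [Function.update_self]
      change OnFlat 2 (X' j)
      rw [hX'i]
      refine Vale.Agent.P054.L2.onFlat_plane n hn c _ ?_
      intro x hx
      exact (Finset.mem_filter.1 hx).2
    · rw [Function.update_of_ne hj]
      change OnFlat (f j) (X' j)
      rw [hX'j j hj]
      exact hflat j hj)
  have h3 : D'.wt = ∑ g ∈ D.G.filter (fun g => lineSet (D.p i g) (D.v i g) ⊆ Q),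
      (psi K (D.T 0 g).card (D.T 1 g).card : ℝ) := rfl
  have h4 : D'.N ≤ D.N := by
    change ∏ j, (X' j).card ≤ ∏ j, (D.X j).card
    refine Finset.prod_le_prod' fun j _ => ?_
    by_cases hj : j = i
    · subst hj
      rw [hX'i]
      exact Finset.card_le_card (Finset.filter_subset _ _)
    · rw [hX'j j hj]
  rw [h3] at h2
  refine h2.trans (mul_le_mul_of_nonneg_left ?_ hC)
  exact Real.rpow_le_rpow (Nat.cast_nonneg _) (Nat.cast_le.2 h4) (by linarith)

open scoped Classical in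
/-- all the lines number `i` lie in one of finitely many planes -/
theorem planes_red (K : ℕ) (B e₀ : ℝ) (ε : ℝ) (hε : 0 < ε) (f : Fin 4 → ℕ) (i : Fin 4) (C : ℝ)
    (hC : 0 ≤ C) (hcl : Claim K B e₀ (Function.update f i 2) ε C) {ι : Type} (D : L2D K B e₀ ι)
    (hflat : ∀ j, j ≠ i → OnFlat (f j) (D.X j)) (P : Finset (Set V3))
    (hP : ∀ Q ∈ P, ∃ (n : V3) (c : ℝ), n ≠ 0 ∧ Q = {x | ∑ k, n k * x k = c})
    (hG : ∀ g ∈ D.G, ∃ Q ∈ P, lineSet (D.p i g) (D.v i g) ⊆ Q) :
    D.wt ≤ C * P.card * (D.N : ℝ) ^ (1 + ε) := by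
  have h1 : D.wt ≤ ∑ Q ∈ P, ∑ g ∈ D.G.filter (fun g => lineSet (D.p i g) (D.v i g) ⊆ Q),
      (psi K (D.T 0 g).card (D.T 1 g).card : ℝ) := by
    rw [Finset.sum_comm' (t' := D.G)
      (s' := fun g => P.filter (fun Q => lineSet (D.p i g) (D.v i g) ⊆ Q))]
    · refine Finset.sum_le_sum fun g hg => ?_
      obtain ⟨Q, hQ, hl⟩ := hG g hg
      rw [Finset.sum_const, nsmul_eq_mul]
      have h2 : 1 ≤ (P.filter (fun Q => lineSet (D.p i g) (D.v i g) ⊆ Q)).card :=
        Finset.card_pos.2 ⟨Q, Finset.mem_filter.2 ⟨hQ, hl⟩⟩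
      have h3 : (1 : ℝ) ≤ ((P.filter (fun Q => lineSet (D.p i g) (D.v i g) ⊆ Q)).card : ℝ) := by
        exact_mod_cast h2
      nlinarith [Nat.cast_nonneg (α := ℝ) (psi K (D.T 0 g).card (D.T 1 g).card)]
    · intro Q g
      simp only [Finset.mem_filter]
      tauto
  refine h1.trans ?_
  refine (Finset.sum_le_card_nsmul P _ _ fun Q hQ =>
    wtha_piece K B e₀ ε hε f i C hC hcl D hflat Q (hP Q hQ)).trans (le_of_eq ?_)
  rw [nsmul_eq_mul]
  ring

end Vale.Agent.P054.L3
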