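import Vale.Agent.P054.L3.WThA
import Vale.Agent.P054.L3.LineRed
import Vale.Agent.P054.L3.Pieces
import Vale.Agent.P054.L2.Walls
import Vale.Agent.P054.L2.Crossing

/-! Block L3, WallThree: all the lines number `i` lie in a surface `F = 0` in space (helper611). -/

set_option linter.all false
set_option autoImplicit false

namespace Vale.Agent.P054.L3

open Finset MvPolynomial
open Vale.Agent.P054.L2 (V3 sqd lpt lineSet trk ONF coord emb InFlat OnFlat)

theorem wt3_der (g : Fin 3 → Polynomial ℝ) (F : MvPolynomial (Fin 3) ℝ) :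
    Polynomial.derivative (aeval g F) =
      ∑ k, aeval g (pderiv k F) * Polynomial.derivative (g k) := by
  induction F using MvPolynomial.induction_on with
  | C a => simp [pderiv_C, algebraMap_eq]
  | add p q hp hq =>
    simp only [map_add, hp, hq, add_mul, Finset.sum_add_distrib]
  | mul_X p i hp =>
    rw [map_mul, aeval_X, Polynomial.derivative_mul, hp]
    have h : ∀ k, aeval g (pderiv k (p * X i)) * Polynomial.derivative (g k) =
        aeval g (pderiv k p) * Polynomial.derivative (g k) * g i +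
        (if k = i then aeval g p * Polynomial.derivative (g i) else 0) := by
      intro k
      rw [pderiv_mul, map_add, map_mul, map_mul, aeval_X]
      by_cases hk : k = i
      · subst hk
        rw [pderiv_X_self, map_one, if_pos rfl]
        ring
      · rw [pderiv_X_of_ne (Ne.symm hk), map_zero, if_neg hk]
        ring
    simp_rw [h]
    rw [Finset.sum_add_distrib, ← Finset.sum_mul]
    simp

theorem wt3_eval (g : Fin 3 → Polynomial ℝ) (F : MvPolynomial (Fin 3) ℝ) (t : ℝ) :
    (aeval g F).eval t = eval (fun k => (g k).eval t) F := by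
  have h := MvPolynomial.eval₂_comp_left (Polynomial.evalRingHom t) (algebraMap ℝ (Polynomial ℝ)) g F
  rw [aeval_def]
  have h2 : (Polynomial.evalRingHom t).comp (algebraMap ℝ (Polynomial ℝ)) = RingHom.id ℝ := by
    ext x
    simp
  rw [h2] at h
  exact h

/-- the derivative of a polynomial along a line -/
theorem wt3_tangent (F : MvPolynomial (Fin 3) ℝ) (p v : V3)
    (h : ∀ t : ℝ, eval (lpt p v t) F = 0) (t : ℝ) :
    ∑ k, eval (lpt p v t) (pderiv k F) * v k = 0 := by
  set g : Fin 3 → Polynomial ℝ := fun k => Polynomial.C (p k) + Polynomial.C (v k) * Polynomial.X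
    with hg
  have hgt : ∀ s : ℝ, (fun k => (g k).eval s) = lpt p v s := by
    intro s
    funext k
    simp only [hg, Polynomial.eval_add, Polynomial.eval_mul, Polynomial.eval_C, Polynomial.eval_X, lpt,
      Pi.add_apply, Pi.smul_apply, smul_eq_mul]
    ring
  have h0 : aeval g F = 0 := by
    refine Polynomial.funext fun s => ?_
    rw [wt3_eval, hgt, h s, Polynomial.eval_zero]
  have h1 := wt3_der g F
  rw [h0, Polynomial.derivative_zero] at h1
  have h2 := congrArg (Polynomial.eval t) h1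
  rw [Polynomial.eval_zero, Polynomial.eval_finset_sum] at h2
  rw [h2]
  refine Finset.sum_congr rfl fun k _ => ?_
  rw [Polynomial.eval_mul, wt3_eval, hgt]
  congr 1
  simp [hg]

/-- a polynomial all of whose derivatives vanish is constant -/
theorem wt3_const (F : MvPolynomial (Fin 3) ℝ) (h : ∀ k, pderiv k F = 0) : ∃ c : ℝ, F = C c := by
  refine ⟨eval 0 F, MvPolynomial.funext fun x => ?_⟩
  rw [eval_C]
  set g : Fin 3 → Polynomial ℝ := fun k => Polynomial.C (x k) * Polynomial.X with hg
  have h1 := wt3_der g F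
  have h2 : Polynomial.derivative (aeval g F) = 0 := by
    rw [h1]
    refine Finset.sum_eq_zero fun k _ => ?_
    rw [h k, map_zero, zero_mul]
  have h3 := Polynomial.natDegree_eq_zero_of_derivative_eq_zero h2
  obtain ⟨a, ha⟩ := Polynomial.natDegree_eq_zero.1 h3
  have e1 := wt3_eval g F 1
  have e0 := wt3_eval g F 0
  rw [← ha, Polynomial.eval_C] at e1 e0
  have f1 : (fun k => (g k).eval 1) = x := by
    funext k
    simp [hg]
  have f0 : (fun k => (g k).eval 0) = (0 : V3) := by
    funext k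
    simp [hg]
  rw [f1] at e1
  rw [f0] at e0
  rw [← e1, ← e0]

theorem wt3_pderiv_deg (F : MvPolynomial (Fin 3) ℝ) (d : ℕ) (hd : F.totalDegree ≤ d + 1)
    (k : Fin 3) : (pderiv k F).totalDegree ≤ d := by
  refine Finset.sup_le fun m hm => ?_
  rw [mem_support_iff, coeff_pderiv] at hm
  have h1 : coeff (m + Finsupp.single k 1) F ≠ 0 := left_ne_zero_of_mul hm
  have h2 := le_totalDegree (mem_support_iff.2 h1)
  have h3 : (m + Finsupp.single k 1).sum (fun _ e => e) = m.sum (fun _ e => e) + 1 := by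
    rw [Finsupp.sum_add_index' (fun _ => rfl) (fun _ _ _ => rfl), Finsupp.sum_single_index rfl]
  omega

/-- restriction to fewer elements -/
def wt3sub {K : ℕ} {B e₀ : ℝ} {ι : Type} (D : L2D K B e₀ ι) (G' : Finset ι) (hG : G' ⊆ D.G) :
    L2D K B e₀ ι :=
  D.restrict G' hG D.X D.T (fun _ _ _ => Finset.Subset.refl _)
    (fun j g hg t ht => D.hX j g (hG hg) t ht)

theorem wt3_lineSet (p v : V3) (t : ℝ) : lineSet p v = lineSet (lpt p v t) v := by
  ext x
  constructor
  · rintro ⟨s, rfl⟩
    refine ⟨s - t, ?_⟩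
    funext k
    simp only [lpt, Pi.add_apply, Pi.smul_apply, smul_eq_mul]
    ring
  · rintro ⟨s, rfl⟩
    refine ⟨t + s, ?_⟩
    funext k
    simp only [lpt, Pi.add_apply, Pi.smul_apply, smul_eq_mul]
    ring

open scoped Classical in
/-- case (2): elements whose line has a regular point, many parameters -/
theorem wt3_regular (K : ℕ) (hK : 2 ≤ K) (B e₀ : ℝ) (ε : ℝ) (hε : 0 < ε) (f : Fin 4 → ℕ)
    (i : Fin 4) (C : ℝ) (hC : 0 ≤ C)
    (hcl1 : Claim K B e₀ (Function.update f i 1) ε C) (d : ℕ) {ι : Type} (D : L2D K B e₀ ι)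
    (hflat : ∀ j, j ≠ i → OnFlat (f j) (D.X j))
    (F : MvPolynomial (Fin 3) ℝ) (hF : F ≠ 0) (hd : F.totalDegree ≤ d)
    (hG : ∀ g ∈ D.G, ∀ t : ℝ, eval (lpt (D.p i g) (D.v i g) t) F = 0)
    (h1 : ∀ g ∈ D.G, ∀ (n : V3) (c : ℝ), n ≠ 0 →
      lineSet (D.p i g) (D.v i g) ⊆ {x | ∑ k, n k * x k = c} →
      ∃ x ∈ {x : V3 | ∑ k, n k * x k = c}, eval x F ≠ 0)
    (h2 : ∀ g ∈ D.G, ∃ k, ∃ t : ℝ, eval (lpt (D.p i g) (D.v i g) t) (pderiv k F) ≠ 0)
    (h3 : ∀ g ∈ D.G, 2 * d + 2 * K ≤ (D.T (trk i) g).card) :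
    D.wt ≤ 4 * (C * d) * (D.N : ℝ) ^ (1 + ε) := by
  set R : V3 → Prop := fun x => (∃ k, eval x (pderiv k F) ≠ 0) ∧
    ∃ x₀ : V3, ∑ k, eval x (pderiv k F) * (x₀ k - x k) = 0 ∧ eval x₀ F ≠ 0 with hR
  set X' : Fin 4 → Finset V3 := Function.update D.X i ((D.X i).filter R) with hX'
  have hX'i : X' i = (D.X i).filter R := by simp [hX']
  have hX'j : ∀ j, j ≠ i → X' j = D.X j := fun j hj => by simp [hX', hj]
  set T' : Fin 2 → ι → Finset ℝ := Function.update D.T (trk i)
    (fun g => (D.T (trk i) g).filter (fun t => R (lpt (D.p i g) (D.v i g) t))) with hT'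
  have hT'i : ∀ g, T' (trk i) g =
      (D.T (trk i) g).filter (fun t => R (lpt (D.p i g) (D.v i g) t)) := fun g => by simp [hT']
  have hT'j : ∀ k, k ≠ trk i → T' k = D.T k := fun k hk => by simp [hT', hk]
  have hTsub : ∀ k g, T' k g ⊆ D.T k g := by
    intro k g
    by_cases hk : k = trk i
    · subst hk
      rw [hT'i]
      exact Finset.filter_subset _ _
    · rw [hT'j k hk]
  let D' : L2D K B e₀ ι := D.restrict D.G (Finset.Subset.refl _) X' T'
    (fun k g _ => hTsub k g) (by
      intro j g hg t ht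
      have h5 := D.hX j g hg t (hTsub _ _ ht)
      by_cases hj : j = i
      · subst hj
        rw [hX'i, Finset.mem_filter]
        rw [hT'i, Finset.mem_filter] at ht
        exact ⟨h5, ht.2⟩
      · rw [hX'j j hj]
        exact h5)
  -- most parameters are regular
  have hmost : ∀ g ∈ D.G, (D.T (trk i) g).card ≤ (T' (trk i) g).card + d := by
    intro g hg
    obtain ⟨k, t0, hk⟩ := h2 g hg
    have hbad : ((D.T (trk i) g).filter
        (fun t => ¬ R (lpt (D.p i g) (D.v i g) t))).card ≤ d := by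
      by_contra hcon
      push Not at hcon
      apply hk
      have h7 : (pderiv k F).totalDegree ≤ d := by
        rcases Nat.eq_zero_or_pos d with h0 | h0
        · have := wt3_pderiv_deg F 0 (by omega) k
          omega
        · have := wt3_pderiv_deg F (d - 1) (by omega) k
          omega
      refine Vale.Agent.P054.L2.few_zeros (pderiv k F) d h7 (D.p i g) (D.v i g) _ ?_ hcon t0
      intro t ht
      rw [Finset.mem_filter] at ht
      by_contra hne
      apply ht.2
      refine ⟨⟨k, hne⟩, ?_⟩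
      have hn : (fun k => eval (lpt (D.p i g) (D.v i g) t) (pderiv k F) : V3) ≠ 0 := by
        intro h0
        exact hne (congrFun h0 k)
      obtain ⟨x₀, hx, hx0⟩ := h1 g hg _
        (∑ k, eval (lpt (D.p i g) (D.v i g) t) (pderiv k F) * (lpt (D.p i g) (D.v i g) t) k) hn (by
        rintro x ⟨s, rfl⟩
        have htan := wt3_tangent F (D.p i g) (D.v i g) (hG g hg) t
        show ∑ k, eval (lpt (D.p i g) (D.v i g) t) (pderiv k F) * (lpt (D.p i g) (D.v i g) s) k =
          ∑ k, eval (lpt (D.p i g) (D.v i g) t) (pderiv k F) * (lpt (D.p i g) (D.v i g) t) k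
        have e1 : ∑ k, eval (lpt (D.p i g) (D.v i g) t) (pderiv k F) *
            (lpt (D.p i g) (D.v i g) s) k =
            ∑ k, eval (lpt (D.p i g) (D.v i g) t) (pderiv k F) * (lpt (D.p i g) (D.v i g) t) k +
            (s - t) * ∑ k, eval (lpt (D.p i g) (D.v i g) t) (pderiv k F) * D.v i g k := by
          rw [Finset.mul_sum, ← Finset.sum_add_distrib]
          refine Finset.sum_congr rfl fun k _ => ?_
          simp only [lpt, Pi.add_apply, Pi.smul_apply, smul_eq_mul]
          ring
        rw [e1, htan, mul_zero, add_zero])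
      refine ⟨x₀, ?_, hx0⟩
      simp_rw [mul_sub]
      rw [Finset.sum_sub_distrib]
      exact sub_eq_zero.2 hx
    have h8 := Finset.card_filter_add_card_filter_not (s := D.T (trk i) g)
      (fun t => R (lpt (D.p i g) (D.v i g) t))
    rw [hT'i]
    omega
  -- comparison of the weights
  have hwt : D.wt ≤ 4 * D'.wt := by
    show ∑ g ∈ D.G, (psi K (D.T 0 g).card (D.T 1 g).card : ℝ) ≤
      4 * ∑ g ∈ D.G, (psi K (T' 0 g).card (T' 1 g).card : ℝ)
    rw [Finset.mul_sum]
    refine Finset.sum_le_sum fun g hg => ?_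
    have h9 := hmost g hg
    have h10 := h3 g hg
    have key : psi K (D.T 0 g).card (D.T 1 g).card ≤ 4 * psi K (T' 0 g).card (T' 1 g).card := by
      rcases Fin.exists_fin_two.1 ⟨trk i, rfl⟩ with h | h
      · rw [h] at h9 h10
        have h11 : T' 1 = D.T 1 := hT'j 1 (by rw [h]; decide)
        rw [h11]
        exact psi_scale K (M := 2) (by norm_num) (by omega) (by omega)
      · rw [h] at h9 h10
        have h11 : T' 0 = D.T 0 := hT'j 0 (by rw [h]; decide)
        rw [h11, psi_comm K (D.T 0 g).card, psi_comm K (D.T 0 g).card]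
        exact psi_scale K (M := 2) (by norm_num) (by omega) (by omega)
    exact_mod_cast key
  have hN : D'.N ≤ D.N := by
    change ∏ j, (X' j).card ≤ ∏ j, (D.X j).card
    refine Finset.prod_le_prod' fun j _ => ?_
    by_cases hj : j = i
    · subst hj
      rw [hX'i]
      exact Finset.card_le_card (Finset.filter_subset _ _)
    · rw [hX'j j hj]
  have hlr := line_red K B e₀ ε hε f i C hC hcl1 d D' (by
      intro j hj
      change OnFlat (f j) (X' j)
      rw [hX'j j hj]
      exact hflat j hj) (by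
      intro x hx
      change x ∈ X' i at hx
      rw [hX'i, Finset.mem_filter] at hx
      obtain ⟨-, hreg, x₀, hx₀, hx₀F⟩ := hx
      refine Vale.Agent.P054.L2.regular_lines F d hd x hreg x₀ hx₀ hx₀F _ ?_
      intro l hl
      rw [Finset.mem_filter, Finset.mem_image] at hl
      obtain ⟨⟨g, hg, rfl⟩, t, ht⟩ := hl
      refine ⟨D.v i g, D.hv i g hg, ?_, ?_⟩
      · rw [← ht]
        exact wt3_lineSet _ _ t
      · rintro y ⟨s, rfl⟩
        exact hG g hg s)
  calc D.wt ≤ 4 * D'.wt := hwt
    _ ≤ 4 * (C * d * (D'.N : ℝ) ^ (1 + ε)) := by linarith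
    _ ≤ 4 * (C * d * (D.N : ℝ) ^ (1 + ε)) := by
        have h12 : (D'.N : ℝ) ^ (1 + ε) ≤ (D.N : ℝ) ^ (1 + ε) :=
          Real.rpow_le_rpow (Nat.cast_nonneg _) (Nat.cast_le.2 hN) (by linarith)
        have h13 : 0 ≤ C * d := mul_nonneg hC (Nat.cast_nonneg _)
        have := mul_le_mul_of_nonneg_left h12 h13
        linarith
    _ = _ := by ring

theorem wt3sub_wt {K : ℕ} {B e₀ : ℝ} {ι : Type} (D : L2D K B e₀ ι) (G' : Finset ι)
    (hG : G' ⊆ D.G) : (wt3sub D G' hG).wt =
      ∑ g ∈ G', (psi K (D.T 0 g).card (D.T 1 g).card : ℝ) := rfl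

/-- case of space -/
theorem wall_red_three (K : ℕ) (hK : 2 ≤ K) (B e₀ : ℝ) (ε : ℝ) (hε : 0 < ε) (f : Fin 4 → ℕ)
    (hf : ∀ j, 1 ≤ f j)
    (i : Fin 4) (C : ℝ) (hC : 0 ≤ C)
    (hcl1 : Claim K B e₀ (Function.update f i 1) ε C)
    (hcl2 : Claim K B e₀ (Function.update f i 2) ε C)
    (hbase : BaseClaim K B e₀ ε)
    (d : ℕ) : ∃ C' : ℝ, 0 ≤ C' ∧ ∀ (ι : Type) (D : L2D K B e₀ ι)
      (hflat : ∀ j, j ≠ i → OnFlat (f j) (D.X j))
      (F : MvPolynomial (Fin 3) ℝ) (hF : F ≠ 0) (hd : F.totalDegree ≤ d)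
      (hG : ∀ g ∈ D.G, ∀ t : ℝ, eval (lpt (D.p i g) (D.v i g) t) F = 0),
      D.wt ≤ C' * (D.N : ℝ) ^ (1 + ε) := by
  classical
  induction d with
  | zero =>
    refine ⟨0, le_rfl, fun ι D hflat F hF hd hG => ?_⟩
    have hc := totalDegree_eq_zero_iff_eq_C.1 (Nat.le_zero.1 hd)
    have hempty : D.G = ∅ := by
      rw [Finset.eq_empty_iff_forall_notMem]
      intro g hg
      have h1 := hG g hg 0
      rw [hc, eval_C] at h1
      apply hF
      rw [hc, h1, C_0]
    have : D.wt = 0 := by
      show ∑ g ∈ D.G, (psi K (D.T 0 g).card (D.T 1 g).card : ℝ) = 0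
      rw [hempty, Finset.sum_empty]
    rw [this, zero_mul]
  | succ d ih =>
    obtain ⟨C1, hC1, ih⟩ := ih
    obtain ⟨C0, hC0, hb⟩ := hbase (2 * (d + 1) + 2 * K)
    refine ⟨C * (d + 1 : ℕ) + (C1 + (4 * (C * (d + 1 : ℕ)) + C0)), by positivity,
      fun ι D hflat F hF hd hG => ?_⟩
    set M : ℝ := (D.N : ℝ) ^ (1 + ε) with hM
    have hM0 : 0 ≤ M := Real.rpow_nonneg (Nat.cast_nonneg _) _
    set PL : ι → Prop := fun g => ∃ (n : V3) (c : ℝ), n ≠ 0 ∧
      lineSet (D.p i g) (D.v i g) ⊆ {x | ∑ k, n k * x k = c} ∧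
      ∀ x ∈ {x : V3 | ∑ k, n k * x k = c}, eval x F = 0 with hPL
    set w : ι → ℝ := fun g => (psi K (D.T 0 g).card (D.T 1 g).card : ℝ) with hw
    have hwD : D.wt = ∑ g ∈ D.G, w g := rfl
    -- part (1)
    have p1 : ∑ g ∈ D.G.filter PL, w g ≤ C * (d + 1 : ℕ) * M := by
      have hch : ∀ g : ι, ∃ Q : Set V3, g ∈ D.G.filter PL → (∃ (n : V3) (c : ℝ), n ≠ 0 ∧
          Q = {x | ∑ k, n k * x k = c} ∧ ∀ x ∈ Q, eval x F = 0) ∧
          lineSet (D.p i g) (D.v i g) ⊆ Q := by
        intro g
        by_cases hg : g ∈ D.G.filter PL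
        · obtain ⟨n, c, hn, hl, hz⟩ := (Finset.mem_filter.1 hg).2
          exact ⟨_, fun _ => ⟨⟨n, c, hn, rfl, hz⟩, hl⟩⟩
        · exact ⟨∅, fun h => absurd h hg⟩
      choose Q hQ using hch
      have hcard : ((D.G.filter PL).image Q).card ≤ d + 1 := by
        refine Vale.Agent.P054.L2.planes_count F hF (d + 1) hd _ ?_
        intro q hq
        obtain ⟨g, hg, rfl⟩ := Finset.mem_image.1 hq
        exact (hQ g hg).1
      have h1 := planes_red K B e₀ ε hε f i C hC hcl2
        (wt3sub D (D.G.filter PL) (Finset.filter_subset _ _)) hflat ((D.G.filter PL).image Q)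
        (by
          intro q hq
          obtain ⟨g, hg, rfl⟩ := Finset.mem_image.1 hq
          obtain ⟨n, c, hn, he, -⟩ := (hQ g hg).1
          exact ⟨n, c, hn, he⟩)
        (by
          intro g hg
          exact ⟨Q g, Finset.mem_image_of_mem _ hg, (hQ g hg).2⟩)
      have h2 : (((D.G.filter PL).image Q).card : ℝ) ≤ ((d + 1 : ℕ) : ℝ) := Nat.cast_le.2 hcard
      have h3 : C * (((D.G.filter PL).image Q).card : ℝ) ≤ C * ((d + 1 : ℕ) : ℝ) :=
        mul_le_mul_of_nonneg_left h2 hC
      exact h1.trans (mul_le_mul_of_nonneg_right h3 hM0)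
    set G' := D.G.filter (fun g => ¬ PL g) with hG'
    have hG's : G' ⊆ D.G := Finset.filter_subset _ _
    set SG : ι → Prop := fun g => ∀ k, ∀ t : ℝ,
      eval (lpt (D.p i g) (D.v i g) t) (pderiv k F) = 0 with hSG
    -- part (3)
    have p3 : ∑ g ∈ G'.filter SG, w g ≤ C1 * M := by
      by_cases hk : ∃ k, pderiv k F ≠ 0
      · obtain ⟨k, hk⟩ := hk
        exact ih ι (wt3sub D (G'.filter SG) ((Finset.filter_subset _ _).trans hG's)) hflat
          (pderiv k F) hk (wt3_pderiv_deg F d hd k)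
          (fun g hg t => (Finset.mem_filter.1 hg).2 k t)
      · push Not at hk
        obtain ⟨c, hc⟩ := wt3_const F hk
        have hempty : G'.filter SG = ∅ := by
          rw [Finset.eq_empty_iff_forall_notMem]
          intro g hg
          have h1 := hG g (hG's (Finset.mem_filter.1 hg).1) 0
          rw [hc, eval_C] at h1
          apply hF
          rw [hc, h1, C_0]
        rw [hempty, Finset.sum_empty]
        positivity
    set G2 := G'.filter (fun g => ¬ SG g) with hG2
    have hG2s : G2 ⊆ D.G := (Finset.filter_subset _ _).trans hG's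
    set LG : ι → Prop := fun g => 2 * (d + 1) + 2 * K ≤ (D.T (trk i) g).card with hLG
    have p2a : ∑ g ∈ G2.filter LG, w g ≤ 4 * (C * (d + 1 : ℕ)) * M := by
      have hs : G2.filter LG ⊆ D.G := (Finset.filter_subset _ _).trans hG2s
      exact wt3_regular K hK B e₀ ε hε f i C hC hcl1 (d + 1) (wt3sub D (G2.filter LG) hs) hflat
        F hF hd (fun g hg t => hG g (hs hg) t)
        (by
          intro g hg n c hn hl
          by_contra hcon
          push Not at hcon
          have hg2 := (Finset.mem_filter.1 hg).1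
          have hg3 := (Finset.mem_filter.1 hg2).1
          exact (Finset.mem_filter.1 hg3).2 ⟨n, c, hn, hl, hcon⟩)
        (by
          intro g hg
          have hg2 := (Finset.mem_filter.1 hg).1
          have hg3 := (Finset.mem_filter.1 hg2).2
          by_contra hcon
          push Not at hcon
          exact hg3 hcon)
        (fun g hg => (Finset.mem_filter.1 hg).2)
    have p2b : ∑ g ∈ G2.filter (fun g => ¬ LG g), w g ≤ C0 * M := by
      have hs : G2.filter (fun g => ¬ LG g) ⊆ D.G := (Finset.filter_subset _ _).trans hG2s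
      refine hb ι (wt3sub D (G2.filter (fun g => ¬ LG g)) hs) (fun g hg => ?_)
      have h1 : ¬ LG g := (Finset.mem_filter.1 hg).2
      rw [hLG] at h1
      push Not at h1
      rcases Fin.exists_fin_two.1 ⟨trk i, rfl⟩ with h | h
      · rw [h] at h1
        exact Or.inl h1
      · rw [h] at h1
        exact Or.inr h1
    have e1 := Finset.sum_filter_add_sum_filter_not D.G PL w
    have e2 := Finset.sum_filter_add_sum_filter_not G' SG w
    have e3 := Finset.sum_filter_add_sum_filter_not G2 LG w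
    rw [hwD, ← e1, ← e2, ← e3]
    have e4 : (C * (d + 1 : ℕ) + (C1 + (4 * (C * (d + 1 : ℕ)) + C0))) * M =
        C * (d + 1 : ℕ) * M + (C1 * M + (4 * (C * (d + 1 : ℕ)) * M + C0 * M)) := by ring
    rw [e4]
    exact add_le_add p1 (add_le_add p3 (add_le_add p2a p2b))

end Vale.Agent.P054.L3
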