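import Vale.Agent.P054.L3.WallTwo
import Vale.Agent.P054.L3.WallThree
import Vale.Agent.P054.L2.Walls
import Vale.Agent.P054.L2.Crossing
import Vale.Agent.P054.L3.Pieces

/-! Block L3, leaf WALLRED (see L2/WallRed.lean for the proofs). -/

set_option linter.all false
set_option autoImplicit false

namespace Vale.Agent.P054.L3

open Finset MvPolynomial
open Vale.Agent.P054.L2 (V3 sqd lpt lineSet trk ONF coord emb InFlat OnFlat)

/-- case of a line -/
theorem wall_red_one (K : ℕ) (hK : 2 ≤ K) (B e₀ : ℝ) {ι : Type} (D : L2D K B e₀ ι) (i : Fin 4) (o : V3) (e : Fin 1 → V3)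
    (hX : InFlat o e (D.X i)) (F : MvPolynomial (Fin 1) ℝ) (hF : F ≠ 0)
    (hG : ∀ g ∈ D.G, ∀ t : ℝ, eval (coord o e (lpt (D.p i g) (D.v i g) t)) F = 0) :
    D.wt = 0 := by
  have h0 : ∀ g ∈ D.G, (psi K (D.T 0 g).card (D.T 1 g).card : ℝ) = 0 := by
    intro g hg
    have hno : ¬ (K ≤ (D.T 0 g).card ∧ K ≤ (D.T 1 g).card) := by
      intro hc
      have h2 : 2 ≤ (D.T (trk i) g).card := by
        rcases Fin.exists_fin_two.1 ⟨trk i, rfl⟩ with h | h
        · rw [h]; exact hK.trans hc.1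
        · rw [h]; exact hK.trans hc.2
      obtain ⟨t1, ht1, t2, ht2, hne⟩ := Finset.one_lt_card.1 (lt_of_lt_of_le one_lt_two h2)
      have hl := Vale.Agent.P054.L2.line_in_flat o e hX.1 _ _ (D.hv i g hg) t1 t2 hne
        (hX.2 _ (D.hX i g hg t1 ht1)) (hX.2 _ (D.hX i g hg t2 ht2))
      set w : Fin 1 → ℝ := fun j => ∑ k, D.v i g k * e j k with hw
      have hw0 : w 0 ≠ 0 := by
        intro h
        apply hl.2
        funext j
        rw [Subsingleton.elim j 0]
        exact h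
      apply hF
      refine MvPolynomial.funext fun y => ?_
      rw [map_zero]
      have h := hG g hg ((y 0 - coord o e (D.p i g) 0) / w 0)
      rw [Vale.Agent.P054.L2.coord_lpt] at h
      have hy : coord o e (D.p i g) + ((y 0 - coord o e (D.p i g) 0) / w 0) • w = y := by
        funext j
        rw [Subsingleton.elim j 0]
        simp only [Pi.add_apply, Pi.smul_apply, smul_eq_mul]
        rw [div_mul_cancel₀ _ hw0]
        ring
      rw [hy] at h
      exact h
    simp [psi, hno]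
  exact Finset.sum_eq_zero h0

theorem wall_red_mono (K : ℕ) (B e₀ : ℝ) (f : Fin 4 → ℕ) (ε C C' : ℝ) (h : C ≤ C')
    (hC : Claim K B e₀ f ε C) : Claim K B e₀ f ε C' := fun ι D hD =>
  (hC ι D hD).trans (mul_le_mul_of_nonneg_right h (Real.rpow_nonneg (Nat.cast_nonneg _) _))

/-- all cases -/
theorem wall_red (K : ℕ) (hK : 2 ≤ K) (B e₀ : ℝ) (ε : ℝ) (hε : 0 < ε) (f : Fin 4 → ℕ)
    (hf : ∀ j, 1 ≤ f j ∧ f j ≤ 3)
    (i : Fin 4) (hlow : LowClaims K B e₀ f ε)
    (hbase : BaseClaim K B e₀ ε)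
    (d n : ℕ) (hn : f i = n) : ∃ C' : ℝ, 0 ≤ C' ∧ ∀ (ι : Type) (D : L2D K B e₀ ι)
      (hflat : ∀ j, j ≠ i → OnFlat (f j) (D.X j))
      (o : V3) (e : Fin n → V3) (hX : InFlat o e (D.X i))
      (F : MvPolynomial (Fin n) ℝ) (hF : F ≠ 0) (hd : F.totalDegree ≤ d)
      (hG : ∀ g ∈ D.G, ∀ t : ℝ, eval (coord o e (lpt (D.p i g) (D.v i g) t)) F = 0),
      D.wt ≤ C' * (D.N : ℝ) ^ (1 + ε) := by
  have hlow' : ∀ m : ℕ, 1 ≤ m → m < n → ∃ C : ℝ, 0 ≤ C ∧ Claim K B e₀ (Function.update f i m) ε C := by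
    intro m hm hmn
    refine hlow (Function.update f i m) ?_ ?_
    · intro j
      by_cases hj : j = i
      · subst hj
        rw [Function.update_self]
        exact ⟨hm, by omega⟩
      · rw [Function.update_of_ne hj]
        exact ⟨(hf j).1, le_refl _⟩
    · intro h
      have h1 := congrFun h i
      rw [Function.update_self] at h1
      omega
  have h1n : 1 ≤ n := hn ▸ (hf i).1
  have hn3 : n ≤ 3 := hn ▸ (hf i).2
  have hn123 : n = 1 ∨ n = 2 ∨ n = 3 := by omega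
  rcases hn123 with rfl | rfl | rfl
  · refine ⟨0, le_refl _, ?_⟩
    intro ι D hflat o e hX F hF hd hG
    rw [wall_red_one K hK B e₀ D i o e hX F hF hG, zero_mul]
  · obtain ⟨C, hC, hcl⟩ := hlow' 1 le_rfl one_lt_two
    refine ⟨C * d, mul_nonneg hC (Nat.cast_nonneg _), ?_⟩
    intro ι D hflat o e hX F hF hd hG
    exact wall_red_two K hK B e₀ ε hε f i C hC hcl d D hflat o e hX F hF hd hG
  · obtain ⟨C1, hC1, hcl1⟩ := hlow' 1 le_rfl (by norm_num)
    obtain ⟨C2, hC2, hcl2⟩ := hlow' 2 one_le_two (by norm_num)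
    obtain ⟨C', hC', h⟩ := wall_red_three K hK B e₀ ε hε f (fun j => (hf j).1) i (max C1 C2)
      (hC1.trans (le_max_left _ _)) (wall_red_mono K B e₀ _ ε C1 _ (le_max_left _ _) hcl1)
      (wall_red_mono K B e₀ _ ε C2 _ (le_max_right _ _) hcl2) hbase d
    refine ⟨C', hC', ?_⟩
    intro ι D hflat o e hX F hF hd hG
    obtain ⟨F', hF', hdeg, hev⟩ := Vale.Agent.P054.L2.exists_pullback o e hX.1 F hF
    exact h ι D hflat F' hF' (hdeg.trans hd) fun g hg t => by rw [hev]; exact hG g hg t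


end Vale.Agent.P054.L3
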