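import Vale.Agent.P054.L3.LineRed
import Vale.Agent.P054.L2.WallsA

/-! Block L2, leaf WALLRED, case of a plane (helper611). -/

set_option linter.all false
set_option autoImplicit false

namespace Vale.Agent.P054.L3

open Finset MvPolynomial
open Vale.Agent.P054.L2 (V3 sqd lpt lineSet trk ONF coord emb InFlat OnFlat onFlat_line coord_lpt line_in_flat lines_through_2d)

private theorem wtw_par (w w' : Fin 2 → ℝ) (hw : w ≠ 0) (hw' : w' ≠ 0)
    (h : w 0 * w' 1 - w 1 * w' 0 = 0) : ∃ c : ℝ, c ≠ 0 ∧ w' = c • w := by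
  by_cases h0 : w 0 = 0
  · have h1 : w 1 ≠ 0 := by
      intro h1
      apply hw
      funext j
      fin_cases j
      · exact h0
      · exact h1
    have e0 : w' 0 = 0 := by
      rw [h0, zero_mul, zero_sub, neg_eq_zero] at h
      exact (mul_eq_zero.1 h).resolve_left h1
    have e : w' = (w' 1 / w 1) • w := by
      funext j
      fin_cases j
      · simp [e0, h0]
      · simp [div_mul_cancel₀, h1]
    refine ⟨w' 1 / w 1, ?_, e⟩
    intro hc
    rw [hc, zero_smul] at e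
    exact hw' e
  · have e : w' = (w' 0 / w 0) • w := by
      funext j
      fin_cases j
      · simp [div_mul_cancel₀, h0]
      · show w' 1 = w' 0 / w 0 * w 1
        field_simp
        linarith
    refine ⟨w' 0 / w 0, ?_, e⟩
    intro hc
    rw [hc, zero_smul] at e
    exact hw' e

private theorem wtw_line {f : ℕ} (o : V3) (e : Fin f → V3) (p v x : V3)
    (h : ∀ t, emb o e (coord o e (lpt p v t)) = lpt p v t) (hx : x ∈ lineSet p v) :
    lineSet p v = Set.range (fun t : ℝ =>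
      emb o e (coord o e x + t • (fun i => ∑ k, v k * e i k : Fin f → ℝ))) := by
  obtain ⟨t0, rfl⟩ := hx
  ext z
  constructor
  · rintro ⟨s, rfl⟩
    refine ⟨s - t0, ?_⟩
    show emb o e (coord o e (lpt p v t0) + (s - t0) • _) = lpt p v s
    rw [← h s, coord_lpt, coord_lpt, add_assoc, ← add_smul]
    congr 3
    ring
  · rintro ⟨s, rfl⟩
    refine ⟨s + t0, ?_⟩
    show lpt p v (s + t0) = emb o e (coord o e (lpt p v t0) + s • _)
    rw [← h (s + t0), coord_lpt, coord_lpt, add_assoc, ← add_smul]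
    congr 3
    ring

private theorem wtw_range {f : ℕ} (o : V3) (e : Fin f → V3) (y w w' : Fin f → ℝ) (c : ℝ)
    (hc : c ≠ 0) (h : w' = c • w) :
    Set.range (fun t : ℝ => emb o e (y + t • w')) = Set.range (fun t : ℝ => emb o e (y + t • w)) := by
  subst h
  ext z
  constructor
  · rintro ⟨t, rfl⟩
    exact ⟨t * c, by simp [smul_smul]⟩
  · rintro ⟨t, rfl⟩
    exact ⟨t / c, by simp [smul_smul, div_mul_cancel₀ _ hc]⟩

/-- case of a plane -/
theorem wall_red_two (K : ℕ) (hK : 2 ≤ K) (B e₀ : ℝ) (ε : ℝ) (hε : 0 < ε) (f : Fin 4 → ℕ) (i : Fin 4) (C : ℝ) (hC : 0 ≤ C)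
    (hcl : Claim K B e₀ (Function.update f i 1) ε C) (d : ℕ) {ι : Type} (D : L2D K B e₀ ι)
    (hflat : ∀ j, j ≠ i → OnFlat (f j) (D.X j)) (o : V3) (e : Fin 2 → V3)
    (hX : InFlat o e (D.X i)) (F : MvPolynomial (Fin 2) ℝ) (hF : F ≠ 0) (hd : F.totalDegree ≤ d)
    (hG : ∀ g ∈ D.G, ∀ t : ℝ, eval (coord o e (lpt (D.p i g) (D.v i g) t)) F = 0) :
    D.wt ≤ C * d * (D.N : ℝ) ^ (1 + ε) := by
  classical
  set G' : Finset ι := D.G.filter (fun g => K ≤ (D.T 0 g).card ∧ K ≤ (D.T 1 g).card) with hG'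
  have hsub : G' ⊆ D.G := Finset.filter_subset _ _
  set D' : L2D K B e₀ ι := D.restrict G' hsub D.X D.T (fun _ _ _ => Finset.Subset.refl _)
    (fun j g hg t ht => D.hX j g (hsub hg) t ht) with hD'
  have hwt : D.wt = D'.wt := by
    show ∑ g ∈ D.G, (psi K (D.T 0 g).card (D.T 1 g).card : ℝ) =
      ∑ g ∈ G', (psi K (D.T 0 g).card (D.T 1 g).card : ℝ)
    symm
    refine Finset.sum_subset hsub ?_
    intro g hg hg'
    have : ¬ (K ≤ (D.T 0 g).card ∧ K ≤ (D.T 1 g).card) := by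
      intro h
      exact hg' (Finset.mem_filter.2 ⟨hg, h⟩)
    simp [psi, this]
  have hN : D.N = D'.N := rfl
  rw [hwt, hN]
  refine line_red K B e₀ ε hε f i C hC hcl d D' hflat ?_
  intro x hx
  -- facts on one line
  have key : ∀ g ∈ G', (∀ t, emb o e (coord o e (lpt (D.p i g) (D.v i g) t)) =
      lpt (D.p i g) (D.v i g) t) ∧
      (fun j => ∑ k, D.v i g k * e j k : Fin 2 → ℝ) ≠ 0 := by
    intro g hg
    have h2 : 2 ≤ (D.T (trk i) g).card := by
      have := (Finset.mem_filter.1 hg).2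
      rcases Fin.exists_fin_two.1 ⟨trk i, rfl⟩ with h | h
      · rw [h]; exact le_trans hK this.1
      · rw [h]; exact le_trans hK this.2
    obtain ⟨t1, ht1, t2, ht2, hne⟩ := Finset.one_lt_card.1 (lt_of_lt_of_le one_lt_two h2)
    exact line_in_flat o e hX.1 _ _ (D.hv i g (hsub hg)) t1 t2 hne
      (hX.2 _ (D.hX i g (hsub hg) t1 ht1)) (hX.2 _ (D.hX i g (hsub hg) t2 ht2))
  set Ls := (D'.G.image (fun g => lineSet (D'.p i g) (D'.v i g))).filter (fun l => x ∈ l) with hLs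
  have hch : ∀ l ∈ Ls, ∃ g ∈ G', lineSet (D.p i g) (D.v i g) = l ∧ x ∈ l := by
    intro l hl
    rw [hLs, Finset.mem_filter, Finset.mem_image] at hl
    obtain ⟨⟨g, hg, h⟩, hx⟩ := hl
    exact ⟨g, hg, h, hx⟩
  rcases Ls.eq_empty_or_nonempty with h0 | ⟨l0, hl0⟩
  · rw [h0]
    simp
  haveI : Nonempty ι := ⟨(hch l0 hl0).choose⟩
  choose! g hgG hgl hgx using hch
  have hrange : ∀ l ∈ Ls, l = Set.range (fun t : ℝ =>
      emb o e (coord o e x + t • (fun j => ∑ k, D.v i (g l) k * e j k : Fin 2 → ℝ))) := by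
    intro l hl
    have hx' : x ∈ lineSet (D.p i (g l)) (D.v i (g l)) := by
      rw [hgl l hl]
      exact hgx l hl
    rw [← wtw_line o e _ _ x (key (g l) (hgG l hl)).1 hx', hgl l hl]
  set W : Finset (Fin 2 → ℝ) :=
    Ls.image (fun l => (fun j => ∑ k, D.v i (g l) k * e j k : Fin 2 → ℝ)) with hW
  have hdet : ∀ l ∈ Ls, ∀ l' ∈ Ls, l ≠ l' →
      (fun j => ∑ k, D.v i (g l) k * e j k : Fin 2 → ℝ) 0 *
        (fun j => ∑ k, D.v i (g l') k * e j k : Fin 2 → ℝ) 1 -
      (fun j => ∑ k, D.v i (g l) k * e j k : Fin 2 → ℝ) 1 *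
        (fun j => ∑ k, D.v i (g l') k * e j k : Fin 2 → ℝ) 0 ≠ 0 := by
    intro l hl l' hl' hne h
    obtain ⟨c, hc, h'⟩ := wtw_par _ _ (key _ (hgG l hl)).2 (key _ (hgG l' hl')).2 h
    apply hne
    rw [hrange l hl, hrange l' hl', wtw_range o e (coord o e x) _ _ c hc h']
  have hinj : Set.InjOn (fun l => (fun j => ∑ k, D.v i (g l) k * e j k : Fin 2 → ℝ)) (Ls : Set _) := by
    intro l hl l' hl' h
    by_contra hne
    apply hdet l hl l' hl' hne
    have h0 := congrFun h 0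
    have h1 := congrFun h 1
    simp only at h0 h1 ⊢
    rw [h0, h1]
    ring
  have hcard : W.card = Ls.card := Finset.card_image_of_injOn hinj
  rw [← hcard]
  refine lines_through_2d F hF d hd (coord o e x) W ?_ ?_ ?_
  · intro w hw
    obtain ⟨l, hl, rfl⟩ := Finset.mem_image.1 hw
    exact (key _ (hgG l hl)).2
  · intro w hw w' hw' hne
    obtain ⟨l, hl, rfl⟩ := Finset.mem_image.1 hw
    obtain ⟨l', hl', rfl⟩ := Finset.mem_image.1 hw'
    exact hdet l hl l' hl' (fun h => hne (by rw [h]))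
  · intro w hw t
    obtain ⟨l, hl, rfl⟩ := Finset.mem_image.1 hw
    have hx' : x ∈ lineSet (D.p i (g l)) (D.v i (g l)) := by
      rw [hgl l hl]
      exact hgx l hl
    obtain ⟨t0, ht0⟩ := hx'
    have h := hG (g l) (hsub (hgG l hl)) (t0 + t)
    rw [← ht0, coord_lpt, add_assoc, ← add_smul, ← coord_lpt]
    exact h

end Vale.Agent.P054.L3
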